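import Vale.Agent.P214.BDIM.Props
import Vale.Agent.P214.BTWO.Cons
import Vale.Agent.P214.INST.KerBd
import Vale.Agent.P214.ODEW.Kern

/-!
# P214, target B, [TW5]: consequences of `BDIM.Act`

One active reference `w = F.lift u` at the scale `s`, `ta ≤ s ≤ tb`, tube `h₁ ≤ s`:
`Act.slab` (thin in Fermi coordinates), `Act.fmass_le` (mass in Fermi coordinates), `Act.hN_le`
(height over the cylinder ≤ kernel height), `Act.psi_mem`, `Act.lift_le`, `Act.fderiv_le`.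
-/

open Set Filter Topology MeasureTheory Metric
open scoped RealInnerProductSpace ENNReal ContDiff

set_option linter.all false

namespace Vale.Agent.P214.BDIM

open WIN STR FM

noncomputable section

variable {m n Q : ℕ} {E : Type*} [NormedAddCommGroup E] [InnerProductSpace ℝ E]
  [FiniteDimensional ℝ E] [MeasurableSpace E] [BorelSpace E]
variable {T : Submodule ℝ E} {F : Frame m n T} {ν : Measure E} {P : E → E →L[ℝ] E}
  {b ε η h₁ κ ta tb s : ℝ} {u : Fin n → REF.E m → ℝ}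

/-- mass bound over the base balls -/
lemma locB_mass {β τ : ℝ} (hL : BLOC.LocB m Q T ν P β τ) (hβ : 0 ≤ β) (hτ : 0 ≤ τ)
    (hτ1 : τ ≤ 1) {t : ℝ} (ht : 0 < t) (ht1 : t ≤ 3 / 8) :
    ν.real (Skel.cylSet T 0 t) ≤ (Q * Skel.om m + 1) * t ^ m := by
  have h1 := (abs_le.1 (hL.int t ht ht1).mass).2
  have h2 : t ^ β ≤ 1 := Real.rpow_le_one ht.le (by linarith) hβ
  have h3 : τ * t ^ β ≤ 1 := by
    have : 0 ≤ t ^ β := Real.rpow_nonneg ht.le _
    nlinarith
  have h4 : τ * t ^ β * t ^ m ≤ 1 * t ^ m := mul_le_mul_of_nonneg_right h3 (by positivity)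
  nlinarith

/-- planar height over the base balls -/
lemma locB_slab {β τ : ℝ} (hL : BLOC.LocB m Q T ν P β τ) {t : ℝ} (ht : 0 < t)
    (ht1 : t ≤ 3 / 8) :
    ∀ᵐ y ∂ν, ‖T.starProjection y‖ < t → ‖y - T.starProjection y‖ ≤ τ * t * t ^ β := by
  filter_upwards [(hL.int t ht ht1).cyl.slab] with y hy hyt
  exact hy (by simpa using hyt)

lemma finite_of_fmeas {w : E → E} (H : Adm T w ε κ h₁) (hf : IsFiniteMeasure (fmeas T w h₁ ν)) :
    IsFiniteMeasure ν := by
  refine ⟨?_⟩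
  have h1 := hf.measure_univ_lt_top
  unfold fmeas at h1
  rwa [Measure.map_apply H.aem MeasurableSet.univ, preimage_univ] at h1

lemma Act.finite (A : Act m n Q F ν P b ε η u h₁ κ ta tb) : IsFiniteMeasure ν := by
  obtain ⟨h, -, hC⟩ := A.cyl
  exact finite_of_fmeas A.adm hC.fin

/-- displacement of the base point -/
lemma adm_disp {w : E → E} (H : Adm T w ε κ h₁) (hts : h₁ ≤ s) (y : E) :
    ‖T.starProjection y - T.starProjection (PsiInv T w h₁ y)‖ ≤ s / 8 := by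
  have h1 := H.disp_le y
  have h2 := H.eps_le
  have h3 := H.ref.eps_nonneg
  have h4 := H.hpos
  nlinarith

lemma adm_disp' {w : E → E} (H : Adm T w ε κ h₁) (hts : h₁ ≤ s) (Y : E) :
    ‖T.starProjection (Psi T w h₁ Y) - T.starProjection Y‖ ≤ s / 8 := by
  have h1 := adm_disp H hts (Psi T w h₁ Y)
  rwa [H.PsiInv_Psi] at h1

/-- **(v)** value of the reference -/
lemma Act.abs_le (A : Act m n Q F ν P b ε η u h₁ κ ta tb) (s0 : 0 < s) (hs : ta ≤ s)
    (hs' : s ≤ tb) (a : Fin n) (x : REF.E m) : |u a x| ≤ ε * (s + ‖x‖) :=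
  (A.at_ s hs hs').abs_le s0 a x

lemma Act.lift_le (A : Act m n Q F ν P b ε η u h₁ κ ta tb) (s0 : 0 < s) (hs : ta ≤ s)
    (hs' : s ≤ tb) (y : E) : ‖F.lift u y‖ ≤ n * ε * (s + ‖F.xc y‖) := by
  refine (F.norm_lift_le u y).trans ?_
  calc ∑ a, |u a (F.xc y)| ≤ ∑ _a : Fin n, ε * (s + ‖F.xc y‖) :=
        Finset.sum_le_sum fun a _ => A.abs_le s0 hs hs' a _
    _ = n * ε * (s + ‖F.xc y‖) := by
        rw [Finset.sum_const, Finset.card_univ, Fintype.card_fin, nsmul_eq_mul]; ring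

lemma Act.fderiv_le (A : Act m n Q F ν P b ε η u h₁ κ ta tb) (y : E) :
    ‖fderiv ℝ (F.lift u) y‖ ≤ ε := A.adm.ref.slope y

/-- the slope on the ball of radius `s` -/
lemma Act.fderiv_small (A : Act m n Q F ν P b ε η u h₁ κ ta tb) (s0 : 0 < s) (hs : ta ≤ s)
    (hs' : s ≤ tb) {y : E} (hy : ‖T.starProjection y‖ ≤ s) :
    ‖fderiv ℝ (F.lift u) y‖ ≤ η := by
  have h1 := (A.slp s hs hs').le y (by rwa [INST.bx_zero])
  refine h1.trans (le_trans ?_ A.curv)
  have := A.adm.ref.knn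
  gcongr

/-- the second derivative at the scale `s` -/
lemma Act.D2_small (A : Act m n Q F ν P b ε η u h₁ κ ta tb) (hs' : s ≤ tb) (s0 : 0 ≤ s) (y : E) :
    ‖D2 (F.lift u) y‖ * s ≤ η := by
  have h1 := A.adm.ref.norm_D2_le y
  have := A.adm.ref.knn
  calc ‖D2 (F.lift u) y‖ * s ≤ κ * tb := by gcongr
    _ ≤ η := A.curv

lemma Act.hN_nonneg (A : Act m n Q F ν P b ε η u h₁ κ ta tb) (hs : ta ≤ s) (hs' : s ≤ tb) :
    0 ≤ hN m T (F.lift u) ν s := (A.pos s hs hs').le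

/-- **(i)** thin in Fermi coordinates -/
theorem Act.slab (A : Act m n Q F ν P b ε η u h₁ κ ta tb) (s0 : 0 < s) (hs : ta ≤ s)
    (hs' : s ≤ tb) (hts : h₁ ≤ s) : ∀ᵐ Y ∂(fmeas T (F.lift u) h₁ ν),
      ‖T.starProjection Y‖ < 3 / 4 * s →
        ‖FV.co T Y‖ ≤ 2 * s * hN m T (F.lift u) ν s ^ (1 / 3 : ℝ) := by
  filter_upwards [A.adm.ae_fmeas (A.thin s hs hs')] with Y hY hlt
  have h1 := adm_disp' A.adm hts Y
  have h2 : ‖T.starProjection (Psi T (F.lift u) h₁ Y)‖ < s := by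
    have := norm_sub_norm_le (T.starProjection (Psi T (F.lift u) h₁ Y)) (T.starProjection Y)
    linarith
  have h3 := hY h2
  have h4 := A.adm.co_le (Psi T (F.lift u) h₁ Y)
  rw [A.adm.PsiInv_Psi] at h4
  have h5 : 0 ≤ s * hN m T (F.lift u) ν s ^ (1 / 3 : ℝ) :=
    mul_nonneg s0.le (Real.rpow_nonneg (A.hN_nonneg hs hs') _)
  calc ‖FV.co T Y‖ ≤ 256 / 255 * (s * hN m T (F.lift u) ν s ^ (1 / 3 : ℝ)) :=
        h4.trans (mul_le_mul_of_nonneg_left h3 (by norm_num))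
    _ ≤ 2 * s * hN m T (F.lift u) ν s ^ (1 / 3 : ℝ) := by nlinarith

/-- **(ii)** mass in Fermi coordinates -/
lemma fmeas_real_le {w : E → E} (H : Adm T w ε κ h₁) [IsFiniteMeasure ν] (hts : h₁ ≤ s) (ρ : ℝ) :
    (fmeas T w h₁ ν).real {Y | ‖T.starProjection Y‖ < ρ} ≤
      ν.real (Skel.cylSet T 0 (ρ + s / 8)) := by
  have hm : MeasurableSet {Y : E | ‖T.starProjection Y‖ < ρ} :=
    (isOpen_lt T.starProjection.continuous.norm continuous_const).measurableSet
  unfold fmeas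
  rw [measureReal_def, Measure.map_apply H.aem hm, ← measureReal_def]
  refine measureReal_mono (fun y hy => ?_) (measure_ne_top _ _)
  have h1 : ‖T.starProjection (PsiInv T w h₁ y)‖ < ρ := hy
  have h2 := adm_disp H hts y
  show T.starProjection y ∈ ball (0:E) (ρ + s / 8)
  rw [mem_ball_zero_iff]
  have := norm_sub_norm_le (T.starProjection y) (T.starProjection (PsiInv T w h₁ y))
  linarith

theorem Act.fmass_le (A : Act m n Q F ν P b ε η u h₁ κ ta tb) {β τ : ℝ}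
    (hL : BLOC.LocB m Q T ν P β τ) (hβ : 0 ≤ β) (hτ : 0 ≤ τ) (hτ1 : τ ≤ 1) (s0 : 0 < s)
    (hs3 : s ≤ 3 / 8) (hts : h₁ ≤ s) :
    (fmeas T (F.lift u) h₁ ν).real {Y | ‖T.starProjection Y‖ < 3 / 4 * s} ≤
      (Q * Skel.om m + 1) * s ^ m := by
  haveI := A.finite
  refine (fmeas_real_le A.adm hts (3 / 4 * s)).trans ?_
  have h1 := locB_mass hL hβ hτ hτ1 s0 hs3
  refine le_trans (measureReal_mono (fun y hy => ?_) (measure_ne_top _ _)) h1
  have h2 : T.starProjection y ∈ ball (0:E) (3 / 4 * s + s / 8) := hy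
  show T.starProjection y ∈ ball (0:E) s
  rw [mem_ball_zero_iff] at h2 ⊢
  linarith

/-- integrability of the squared height -/
lemma Act.integrableOn (A : Act m n Q F ν P b ε η u h₁ κ ta tb) (hs : ta ≤ s)
    (hs' : s ≤ tb) : IntegrableOn (fun y => ‖FV.co T y - F.lift u y‖ ^ 2)
      (Skel.cylSet T 0 s) ν := by
  haveI := A.finite
  have hc : Continuous fun y : E => ‖FV.co T y - F.lift u y‖ ^ 2 :=
    (((FV.co T).continuous.sub A.adm.ref.smooth.continuous).norm).pow 2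
  refine Integrable.mono' (g := fun _ => (s * hN m T (F.lift u) ν s ^ (1 / 3 : ℝ)) ^ 2)
    (integrable_const _) hc.aestronglyMeasurable ?_
  rw [ae_restrict_iff' (KMS.measurableSet_cylSet T 0 s)]
  filter_upwards [A.thin s hs hs'] with y hy hyc
  rw [Real.norm_eq_abs, abs_of_nonneg (by positivity)]
  have h1 : T.starProjection y ∈ ball (0:E) s := hyc
  exact pow_le_pow_left₀ (norm_nonneg _) (hy (mem_ball_zero_iff.1 h1)) 2

/-- **(iii)** height over the cylinder ≤ kernel height -/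
theorem Act.hN_le {k k' K : ℝ → ℝ} {B : ℝ} (hk : ODEW.KB k k' K B)
    (hk3 : ∀ x, 0 ≤ x → x ≤ 9 / 16 → 1 ≤ B * k x)
    (A : Act m n Q F ν P b ε η u h₁ κ ta tb) (hη : η ≤ 1 / 2) (s0 : 0 < s) (hs : ta ≤ s)
    (hs' : s ≤ tb) (hts : h₁ ≤ s) :
    s ^ 2 * hN m T (F.lift u) ν (s / 8) ≤
      (256 * 2 ^ m * B) * HF m T (F.lift u) 0 k (fmeas T (F.lift u) h₁ ν) (s / 4) := by
  haveI := A.finite
  have hB := hk.one
  have hB0 : 0 < B := by linarith
  have hη' : hN m T (F.lift u) ν s ≤ 1 / 2 := (A.le s hs hs').trans hη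
  have h13 : hN m T (F.lift u) ν s ^ (1 / 3 : ℝ) ≤ 9 / 10 := by
    have h1 : hN m T (F.lift u) ν s ^ (1 / 3 : ℝ) ≤ (729 / 1000) ^ (1 / 3 : ℝ) :=
      Real.rpow_le_rpow (A.hN_nonneg hs hs') (hη'.trans (by norm_num)) (by norm_num)
    have h2 : ((729:ℝ) / 1000) ^ (1 / 3 : ℝ) = 9 / 10 := by
      rw [show (729:ℝ) / 1000 = (9 / 10) ^ (3 : ℕ) by norm_num, ← Real.rpow_natCast,
        ← Real.rpow_mul (by norm_num)]
      norm_num
    rwa [h2] at h1
  have ht : 0 < s / 4 := by positivity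
  have hint := A.integrableOn hs hs'
  have hI : Integrable (hIn T (F.lift u) h₁ 0 k (s / 4)) ν := by
    refine A.adm.integrable_hIn hk.kern.pk.continuous hk.kern.pk.zero hk.kB hk.kern.nonneg ht
      (KMS.measurableSet_cylSet T 0 s) hint (Eventually.of_forall fun y hy => ?_)
    have h1 := adm_disp A.adm hts y
    rw [INST.bx_zero] at hy
    show T.starProjection y ∈ ball (0:E) s
    rw [mem_ball_zero_iff]
    have := norm_sub_norm_le (T.starProjection y) (T.starProjection (PsiInv T (F.lift u) h₁ y))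
    linarith
  have hlow : ∀ᵐ y ∂ν, y ∈ Skel.cylSet T 0 (s / 8) →
      B⁻¹ ≤ k (aX T (F.lift u) 0 (PsiInv T (F.lift u) h₁ y) / (s / 4) ^ 2) := by
    filter_upwards [A.thin s hs hs'] with y hy hyt
    have hyt' : ‖T.starProjection y‖ < s / 8 := by
      have h0 : T.starProjection y ∈ ball (0:E) (s / 8) := hyt
      exact mem_ball_zero_iff.1 h0
    have h2 := hy (by linarith)
    have h1 := A.adm.le_bx' 0 y
    have h4 := A.adm.ref.eps_nonneg
    have h5 := A.adm.co_le y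
    have h6 := A.adm.eps_le
    rw [INST.bx_zero, INST.bx_zero] at h1
    have h7 : ‖T.starProjection (PsiInv T (F.lift u) h₁ y)‖ ≤ 3 / 4 * (s / 4) := by
      have h8 : ‖KMS.rel T (F.lift u) y‖ ≤ s * (9 / 10) := h2.trans (by gcongr)
      have h8' : ‖FV.co T y - F.lift u y‖ ≤ s * (9 / 10) := h8
      have h9 : ε * ‖FV.co T (PsiInv T (F.lift u) h₁ y)‖ ≤ 1 / 16 * (256 / 255 * (s * (9 / 10))) := by
        have := norm_nonneg (FV.co T (PsiInv T (F.lift u) h₁ y))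
        calc ε * ‖FV.co T (PsiInv T (F.lift u) h₁ y)‖
            ≤ 1 / 16 * (256 / 255 * ‖FV.co T y - F.lift u y‖) := by gcongr
          _ ≤ _ := by gcongr
      nlinarith
    have h10 : aX T (F.lift u) 0 (PsiInv T (F.lift u) h₁ y) / (s / 4) ^ 2 ≤ 9 / 16 := by
      unfold aX XX
      rw [INST.bx_zero, div_le_iff₀ (by positivity)]
      calc ‖T.starProjection (PsiInv T (F.lift u) h₁ y)‖ ^ 2 ≤ (3 / 4 * (s / 4)) ^ 2 :=
            pow_le_pow_left₀ (norm_nonneg _) h7 2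
        _ = _ := by ring
    have h11 : 0 ≤ aX T (F.lift u) 0 (PsiInv T (F.lift u) h₁ y) / (s / 4) ^ 2 := by
      unfold aX; positivity
    have h12 := hk3 _ h11 h10
    rw [inv_le_iff_one_le_mul₀ hB0, mul_comm]
    linarith
  have h1 := A.adm.HF_ge m (z := 0) hk.kern.nonneg ht (KMS.measurableSet_cylSet T 0 (s / 8))
    hI (by positivity : 0 ≤ B⁻¹) hlow
  have e1 : ∫ y in Skel.cylSet T 0 (s / 8), ‖FV.co T y - F.lift u y‖ ^ 2 ∂ν =
      (s / 8) ^ (m + 2) * STR.hN m T (F.lift u) ν (s / 8) := by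
    unfold STR.hN WIN.hE KMS.rel
    have : (s / 8) ^ (m + 2) ≠ 0 := by positivity
    field_simp
  rw [e1] at h1
  have h2 : B⁻¹ / 4 * ((s / 4) ^ m)⁻¹ * ((s / 8) ^ (m + 2) * STR.hN m T (F.lift u) ν (s / 8)) =
      (256 * 2 ^ m * B)⁻¹ * (s ^ 2 * STR.hN m T (F.lift u) ν (s / 8)) := by
    have e2 : (s / 8) ^ (m + 2) = ((s / 4) ^ m) * (2 ^ m)⁻¹ * (s ^ 2 / 64) := by
      rw [pow_add, show s / 8 = (s / 4) / 2 by ring, div_pow (s / 4) 2 m]
      ring
    rw [e2]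
    have : (s / 4) ^ m ≠ 0 := by positivity
    field_simp
    ring
  rw [h2] at h1
  have hC : 0 < 256 * 2 ^ m * B := by positivity
  rwa [inv_mul_le_iff₀ hC] at h1

/-- **(iv)** points of the support over the ball of radius `2 s` -/
theorem Act.psi_mem (A : Act m n Q F ν P b ε η u h₁ κ ta tb) {β τ : ℝ}
    (hL : BLOC.LocB m Q T ν P β τ) (hβ : 0 ≤ β) (hτ : 0 ≤ τ) (hτ1 : τ ≤ 1 / 4) (s0 : 0 < s)
    (hs3 : s ≤ 1 / 8) (hts : h₁ ≤ s) : ∀ᵐ Y ∂(fmeas T (F.lift u) h₁ ν),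
      ‖T.starProjection Y‖ < 2 * s → ‖Psi T (F.lift u) h₁ Y‖ < 4 * s := by
  have h0 := locB_slab hL (t := 9 / 4 * s) (by positivity) (by linarith)
  filter_upwards [A.adm.ae_fmeas h0] with Y hY hlt
  have h1 := adm_disp' A.adm hts Y
  set y := Psi T (F.lift u) h₁ Y with hy
  have h2 : ‖T.starProjection y‖ < 9 / 4 * s := by
    have := norm_sub_norm_le (T.starProjection y) (T.starProjection Y)
    linarith
  have h3 := hY h2
  have h4 : (9 / 4 * s) ^ β ≤ 1 := Real.rpow_le_one (by positivity) (by linarith) hβ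
  have h5 : τ * (9 / 4 * s) * (9 / 4 * s) ^ β ≤ 1 / 4 * (9 / 4 * s) * 1 := by
    have : 0 ≤ (9 / 4 * s) ^ β := Real.rpow_nonneg (by positivity) _
    gcongr
  have h6 : ‖y‖ ≤ ‖T.starProjection y‖ + ‖y - T.starProjection y‖ := by
    calc ‖y‖ = ‖T.starProjection y + (y - T.starProjection y)‖ := by congr 1; abel
      _ ≤ _ := norm_add_le _ _
  linarith

end

end Vale.Agent.P214.BDIM
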