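import Vale.Agent.P214.BDIM.Props
import Vale.Agent.P214.INST.Base

/-!
# P214, block [B4-TWO], piece TW6 (helper699): kernel heights of an active reference

`Act.upper` : `H_w(t) ≤ 2^{m+3} B t² h_N(2t)`, `Act.lower` : `t² h_N(t) ≤ 2^{m+4} H_w(2t)`;
`hw_upper`, `hw_lower` : the same in the form used by the assembly of `TwoStmt`.
-/

open Set Filter Topology MeasureTheory Metric
open scoped RealInnerProductSpace ContDiff

set_option linter.all false

namespace Vale.Agent.P214.BDIM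

open WIN STR FM DIM SCALE SUB

noncomputable section

variable {m n Q : ℕ} {E : Type*} [NormedAddCommGroup E] [InnerProductSpace ℝ E]
  [FiniteDimensional ℝ E] [MeasurableSpace E] [BorelSpace E]
variable {T : Submodule ℝ E} {F : Frame m n T} {ν : Measure E} {P : E → E →L[ℝ] E}
  {b ε η : ℝ} {u : Fin n → REF.E m → ℝ} {h₁ κ ta tb t : ℝ} {k k' K : ℝ → ℝ} {B : ℝ}

lemma bx_zero' (T : Submodule ℝ E) (y : E) : ODE.bx T 0 y = T.starProjection y := by
  rw [ODE.bx_eq, map_zero, sub_zero]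

lemma setOf_bx_zero' (T : Submodule ℝ E) (s : ℝ) :
    {y : E | ‖ODE.bx T 0 y‖ < s} = Skel.cylSet T 0 s := by
  ext y
  show ‖ODE.bx T 0 y‖ < s ↔ T.starProjection y ∈ ball (0:E) s
  rw [bx_zero', mem_ball_zero_iff]

lemma meas_cyl (T : Submodule ℝ E) (z : E) (R : ℝ) : MeasurableSet (Skel.cylSet T z R) :=
  (isOpen_ball.preimage T.starProjection.continuous).measurableSet

lemma hN_nonneg' {w : E → E} (ht : 0 < t) : 0 ≤ hN m T w ν t := by
  unfold STR.hN WIN.hE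
  have : 0 ≤ ∫ y in Skel.cylSet T 0 t, ‖KMS.rel T w y‖ ^ 2 ∂ν :=
    integral_nonneg fun _ => sq_nonneg _
  positivity

namespace Act

lemma intOn (A : Act m n Q F ν P b ε η u h₁ κ ta tb) (h1 : ta ≤ t) (h2 : t ≤ tb) :
    IntegrableOn (fun y => ‖FV.co T y - F.lift u y‖ ^ 2) (Skel.cylSet T 0 t) ν := by
  by_contra h
  have h3 := A.pos t h1 h2
  have h4 : hE T (F.lift u) ν t = 0 := integral_undef h
  unfold STR.hN at h3
  rw [h4, mul_zero] at h3
  exact lt_irrefl _ h3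

lemma hE_eq {w : E → E} (ht : 0 < t) : ∫ y in Skel.cylSet T 0 t, ‖FV.co T y - w y‖ ^ 2 ∂ν =
    t ^ (m + 2) * hN m T w ν t := by
  unfold STR.hN WIN.hE KMS.rel
  field_simp

/-- **upper bound of the kernel height** -/
theorem upper (hk : INST.Ker k k' K B) (A : Act m n Q F ν P b ε η u h₁ κ ta tb) (hta : 0 < ta)
    (hη : η ≤ 1) (h1 : ta ≤ t) (h2 : 2 * t ≤ tb) :
    INST.Hw m T ν k h₁ (F.lift u) t ≤
      2 * B * 2 ^ (m + 2) * t ^ 2 * hN m T (F.lift u) ν (2 * t) := by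
  have ht0 : 0 < t := hta.trans_le h1
  have hη0 : 0 ≤ η := (A.pos t h1 (by linarith)).le.trans (A.le t h1 (by linarith))
  have hsub : ∀ᵐ y ∂ν, ‖ODE.bx T 0 (PsiInv T (F.lift u) h₁ y)‖ < t →
      y ∈ Skel.cylSet T 0 (2 * t) := by
    filter_upwards [ae_of_ae_map A.adm.aem.aemeasurable (A.coarse t h1 (by linarith))]
      with y hy hlt
    rw [← setOf_bx_zero']
    have e1 := A.adm.bx_le' 0 y
    have e2 := hy (by rw [← bx_zero']; linarith)
    have e4 := A.adm.ref.eps_nonneg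
    have e5 := A.adm.eps_le
    show ‖ODE.bx T 0 y‖ < 2 * t
    calc ‖ODE.bx T 0 y‖ ≤ _ := e1
      _ < t + 1 * (1 * t) := by
          have e6 : ε * ‖FV.co T (PsiInv T (F.lift u) h₁ y)‖ ≤ 1 * (1 * t) := by
            refine mul_le_mul (by linarith) (e2.trans (by gcongr)) (norm_nonneg _) zero_le_one
          linarith
      _ = 2 * t := by ring
  have h3 := A.adm.HF_le m hk.kb.kern.pk.continuous hk.kb.kern.pk.zero hk.kb.kB
    hk.kb.kern.nonneg ht0 (meas_cyl T 0 (2 * t)) (A.intOn (by linarith) h2) hsub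
  refine h3.trans (le_of_eq ?_)
  rw [hE_eq (m := m) (by positivity : 0 < 2 * t), mul_pow, pow_add t]
  field_simp

/-- **lower bound of the kernel height** -/
theorem lower (hk : INST.Ker k k' K B) (A : Act m n Q F ν P b ε η u h₁ κ ta tb) (hta : 0 < ta)
    (hη : η ≤ 1) (h1 : ta ≤ t) (h2 : 4 * t ≤ tb) :
    t ^ 2 * hN m T (F.lift u) ν t ≤ 16 * 2 ^ m * INST.Hw m T ν k h₁ (F.lift u) (2 * t) := by
  have ht0 : 0 < t := hta.trans_le h1
  have hε0 := A.adm.ref.eps_nonneg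
  have hε1 := A.adm.eps_le
  have hint : Integrable (hIn T (F.lift u) h₁ 0 k (2 * t)) ν := by
    refine A.adm.integrable_hIn hk.kb.kern.pk.continuous hk.kb.kern.pk.zero hk.kb.kB
      hk.kb.kern.nonneg (by positivity) (meas_cyl T 0 (4 * t))
      (A.intOn (by linarith) h2) (Eventually.of_forall fun y hy => ?_)
    rw [← setOf_bx_zero']
    have e1 := A.adm.bx_le 0 y
    have e2 : 2 * ε * h₁ ≤ 2 * (1 / 16) * t := by
      have := A.adm.hpos
      have := A.tube_le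
      gcongr
      linarith
    show ‖ODE.bx T 0 y‖ < _
    linarith
  have hlow : ∀ᵐ y ∂ν, y ∈ Skel.cylSet T 0 t →
      1 / 4 ≤ k (aX T (F.lift u) 0 (PsiInv T (F.lift u) h₁ y) / (2 * t) ^ 2) := by
    filter_upwards [A.thin t h1 (by linarith)] with y hy hyt
    have hyt' : ‖T.starProjection y‖ < t := by
      have h0 : T.starProjection y ∈ ball (0:E) t := hyt
      exact mem_ball_zero_iff.1 h0
    have e1 := A.adm.le_bx' 0 y
    have e2 := hy hyt'
    have e3 : t * hN m T (F.lift u) ν t ^ (1 / 3 : ℝ) ≤ t * 1 := by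
      have e4 := A.pos t h1 (by linarith)
      have e5 := (A.le t h1 (by linarith)).trans hη
      have : hN m T (F.lift u) ν t ^ (1 / 3 : ℝ) ≤ 1 := Real.rpow_le_one e4.le e5 (by norm_num)
      gcongr
    have e5 := A.adm.co_le y
    have e6 : ‖FV.co T y - F.lift u y‖ ≤ t := by
      have : ‖KMS.rel T (F.lift u) y‖ = ‖FV.co T y - F.lift u y‖ := rfl
      linarith
    have e7 : ‖ODE.bx T 0 (PsiInv T (F.lift u) h₁ y)‖ ≤ 9 / 8 * t := by
      rw [bx_zero'] at e1 ⊢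
      rw [bx_zero'] at e1
      have e8 : ε * ‖FV.co T (PsiInv T (F.lift u) h₁ y)‖ ≤ 1 / 16 * (256 / 255 * t) := by
        calc _ ≤ 1 / 16 * (256 / 255 * ‖FV.co T y - F.lift u y‖) := by gcongr
          _ ≤ _ := by gcongr
      linarith
    have e9 : aX T (F.lift u) 0 (PsiInv T (F.lift u) h₁ y) =
        ‖ODE.bx T 0 (PsiInv T (F.lift u) h₁ y)‖ ^ 2 := rfl
    rw [e9]
    set x := ‖ODE.bx T 0 (PsiInv T (F.lift u) h₁ y)‖
    have hx0 : 0 ≤ x := norm_nonneg _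
    have f1 : x ^ 2 / (2 * t) ^ 2 ≤ 81 / 256 := by
      rw [div_le_iff₀ (by positivity)]
      nlinarith
    have f2 : 0 ≤ x ^ 2 / (2 * t) ^ 2 := by positivity
    refine le_trans ?_ (hk.low _ f2 (by linarith))
    have f3 : (175 / 256 : ℝ) ≤ 1 - x ^ 2 / (2 * t) ^ 2 := by linarith
    calc (1 / 4 : ℝ) ≤ (175 / 256) ^ 3 := by norm_num
      _ ≤ _ := by gcongr
  have h3 := A.adm.HF_ge m (z := 0) hk.kb.kern.nonneg (by positivity : 0 < 2 * t)
    (meas_cyl T 0 t) hint (by norm_num : (0:ℝ) ≤ 1 / 4) hlow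
  rw [hE_eq (m := m) ht0] at h3
  have e1 : 1 / 4 / 4 * ((2 * t) ^ m)⁻¹ * (t ^ (m + 2) * hN m T (F.lift u) ν t) =
      (16 * 2 ^ m)⁻¹ * (t ^ 2 * hN m T (F.lift u) ν t) := by
    rw [mul_pow, pow_add]; field_simp; ring
  rw [e1] at h3
  have h4 : (0:ℝ) < 16 * 2 ^ m := by positivity
  calc _ = 16 * 2 ^ m * ((16 * 2 ^ m)⁻¹ * (t ^ 2 * hN m T (F.lift u) ν t)) := by
        field_simp
    _ ≤ _ := by
        unfold INST.Hw
        gcongr

end Act

/-- **[TW6]** -/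
theorem hw_upper (m : ℕ) (hk : INST.Ker k k' K B) : ∃ C : ℝ, 1 ≤ C ∧
    ∀ {n Q : ℕ} {E : Type*} [NormedAddCommGroup E] [InnerProductSpace ℝ E]
      [FiniteDimensional ℝ E] [MeasurableSpace E] [BorelSpace E]
      {T : Submodule ℝ E} {F : Frame m n T} {ν : Measure E} {P : E → E →L[ℝ] E}
      {b ε η : ℝ} {u : Fin n → REF.E m → ℝ} {h₁ κ s : ℝ}, 0 < s → η ≤ 1 →
      Act m n Q F ν P b ε η u h₁ κ (s / 64) s →
      INST.Hw m T ν k h₁ (F.lift u) (s / 16) ≤ C * s ^ 2 * hN m T (F.lift u) ν (s / 8) := by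
  have hB := hk.kb.one
  have h2m : (1:ℝ) ≤ 2 ^ (m + 2) := one_le_pow₀ (by norm_num)
  refine ⟨2 * B * 2 ^ (m + 2), by nlinarith, ?_⟩
  intro n Q E _ _ _ _ _ T F ν P b ε η u h₁ κ s hs hη A
  have h1 := A.upper hk (by positivity) hη (t := s / 16) (by linarith) (by linarith)
  have h2 : 2 * (s / 16) = s / 8 := by ring
  rw [h2] at h1
  refine h1.trans ?_
  have h3 : 0 ≤ hN m T (F.lift u) ν (s / 8) := hN_nonneg' (by positivity)
  have h4 : (s / 16) ^ 2 ≤ s ^ 2 := by nlinarith [sq_nonneg s]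
  gcongr

/-- the lower bound: `s² h_N(s/8) ≤ C H_w(s/4)` -/
theorem hw_lower (m : ℕ) (hk : INST.Ker k k' K B) : ∃ C : ℝ, 1 ≤ C ∧
    ∀ {n Q : ℕ} {E : Type*} [NormedAddCommGroup E] [InnerProductSpace ℝ E]
      [FiniteDimensional ℝ E] [MeasurableSpace E] [BorelSpace E]
      {T : Submodule ℝ E} {F : Frame m n T} {ν : Measure E} {P : E → E →L[ℝ] E}
      {b ε η : ℝ} {u : Fin n → REF.E m → ℝ} {h₁ κ s : ℝ}, 0 < s → η ≤ 1 →
      Act m n Q F ν P b ε η u h₁ κ (s / 64) s →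
      s ^ 2 * hN m T (F.lift u) ν (s / 8) ≤ C * INST.Hw m T ν k h₁ (F.lift u) (s / 4) := by
  have h2m : (1:ℝ) ≤ 2 ^ m := one_le_pow₀ (by norm_num)
  refine ⟨64 * (16 * 2 ^ m), by nlinarith, ?_⟩
  intro n Q E _ _ _ _ _ T F ν P b ε η u h₁ κ s hs hη A
  have h1 := A.lower hk (by positivity) hη (t := s / 8) (by linarith) (by linarith)
  have h2 : 2 * (s / 8) = s / 4 := by ring
  rw [h2] at h1
  calc s ^ 2 * hN m T (F.lift u) ν (s / 8) =
        64 * ((s / 8) ^ 2 * hN m T (F.lift u) ν (s / 8)) := by ring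
    _ ≤ 64 * (16 * 2 ^ m * INST.Hw m T ν k h₁ (F.lift u) (s / 4)) := by gcongr
    _ = _ := by ring

end

end Vale.Agent.P214.BDIM
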