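import Vale.Agent.P214.BDIM.Cover

/-!
# P214, target B, block [B5-COV]: the abstract covering with relational data

`dimH_le_of_rel`: as `dimH_le_of_pinch`, but the class index (in any countable type), the limit
frequency and the pinching scale are given by a relation `R x i M t₁` (no choice functions).
-/

open Set

namespace Vale.Agent.P214.BDIM

open Vale.Agent.P214.DIM

variable {E : Type*} [NormedAddCommGroup E] [InnerProductSpace ℝ E] [FiniteDimensional ℝ E]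

/-- **[B5-COV], relational form.** -/
theorem dimH_le_of_rel {A : Set E} (d : ℕ) {ι : Type*} [Countable ι]
    (R : E → ι → ℝ → (ℝ → ℝ) → Prop)
    (hR : ∀ x ∈ A, ∃ (i : ι) (M : ℝ) (t1 : ℝ → ℝ), (∀ δ, 0 < δ → 0 < t1 δ) ∧ R x i M t1)
    (H : ∀ rho : ℝ, 0 < rho → 6 * rho < 1 → ∀ i : ι, ∃ δ : ℝ, 0 < δ ∧ ∀ τ : ℝ, 0 < τ →
      ∃ t0 : ℝ, 0 < t0 ∧ ∀ (B : Set E) (M : E → ℝ) (t1 : E → ℝ → ℝ), B ⊆ A →
        (∀ x ∈ B, R x i (M x) (t1 x)) → (∀ x ∈ B, τ ≤ t1 x δ) →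
        (∀ x ∈ B, ∀ y ∈ B, |M x - M y| ≤ δ) → ∀ x ∈ B, ∀ t, 0 < t → t ≤ t0 →
          FlatPt d rho t B x) :
    dimH A ≤ d := by
  classical
  rcases isEmpty_or_nonempty ι with hι | hι
  · have hA : A = ∅ := by
      rw [eq_empty_iff_forall_notMem]
      intro x hx
      obtain ⟨i, -⟩ := hR x hx
      exact hι.elim i
    rw [hA, dimH_empty]
    exact zero_le
  obtain ⟨f, hf⟩ := Countable.exists_injective_nat ι
  choose! ci Mi ti hti hRi using hR
  refine dimH_le_of_pinch d (fun x => f (ci x)) Mi (fun δ x => ti x δ)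
    (fun δ hδ x hx => hti x hx δ hδ) fun rho h0 h1 k => ?_
  by_cases hk : ∃ i, f i = k
  · obtain ⟨i, rfl⟩ := hk
    obtain ⟨δ, hδ, hH⟩ := H rho h0 h1 i
    refine ⟨δ, hδ, fun τ hτ => ?_⟩
    obtain ⟨t0, ht0, hfl⟩ := hH τ hτ
    refine ⟨t0, ht0, fun B hBA hc ht hM => ?_⟩
    refine hfl B Mi ti hBA (fun x hx => ?_) ht hM
    have h2 : ci x = i := hf (hc x hx)
    rw [← h2]
    exact hRi x (hBA hx)
  · refine ⟨1, one_pos, fun τ _ => ⟨1, one_pos, fun B _ hc _ _ x hx => ?_⟩⟩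
    exact absurd ⟨ci x, hc x hx⟩ hk

end Vale.Agent.P214.BDIM
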