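import Vale.Agent.P214.BDIM.Props
import Vale.Agent.P214.BDIM.Cov
import Vale.Agent.P214.DIM.PEnd

/-!
# P214, target B, block [B5-COV]: from the flatness of the classes to the dimension of `sing`
-/

open Set Filter Topology MeasureTheory Metric
open scoped RealInnerProductSpace ENNReal ContDiff

namespace Vale.Agent.P214.BDIM

open WIN STR FM DIM SCALE SUB

variable {m n Q : ℕ} {E : Type*} [NormedAddCommGroup E] [InnerProductSpace ℝ E]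
  [FiniteDimensional ℝ E] [MeasurableSpace E] [BorelSpace E]

lemma Rdy.mono_scale {k K : ℝ → ℝ} {T : Submodule ℝ E} {F : Frame m n T} {ν : Measure E}
    {P : E → E →L[ℝ] E} {b ε η M Λ t₁ t₂ : ℝ} (h : Rdy k K m n Q F ν P b ε η M Λ t₁)
    (ht : t₂ ≤ t₁) : Rdy k K m n Q F ν P b ε η M Λ t₂ :=
  fun β t h2 h60 h0 h1 => h β t h2 h60 h0 (h1.trans ht)

/-- the relation between a point, its class, its frequency and its pinching scales -/
def CovRel (k K : ℝ → ℝ) (b ε : ℝ) {U : Set E} (V : IntegralVarifold m U) (n Q : ℕ) (x : E)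
    (c : ℕ × ℕ × ℕ) (M : ℝ) (t₁ : ℝ → ℝ) : Prop :=
  ∃ D : Pt k K b ε V n x Q c.1 c.2.1 c.2.2, D.M = M ∧
    ∀ δ, 0 < δ → Rdy k K m n Q D.F (nuX V D.T x c.2.1) (PX V x c.2.1) b ε δ D.M c.2.2 (t₁ δ)

/-- the points of multiplicity `Q` -/
theorem dimH_class {k K : ℝ → ℝ} {b : ℝ} (hF : FlatStmt E m n k K b) {U : Set E}
    {V : IntegralVarifold m U} (hU : IsOpen U) (hV : V.IsStationary) (hQ : 1 ≤ Q) {A : Set E}
    (hA : A ⊆ V.spt) (hPt : ∀ x ∈ A, ∀ ε : ℝ, 0 < ε → ε ≤ eps0 →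
      ∃ i j l : ℕ, Nonempty (Pt k K b ε V n x Q i j l)) :
    dimH A ≤ ((m - 1 : ℕ) : ℝ≥0∞) := by
  classical
  obtain ⟨ε₀, hε₀, hF⟩ := hF Q hQ
  have he0 : 0 < min ε₀ eps0 := lt_min hε₀ eps0_pos
  have hF := hF (min ε₀ eps0) he0 (min_le_left _ _) U V hU hV
  refine dimH_le_of_rel (m - 1) (ι := ℕ × ℕ × ℕ) (CovRel k K b (min ε₀ eps0) V n Q) ?_ ?_
  · intro x hx
    obtain ⟨i, j, l, ⟨D⟩⟩ := hPt x hx (min ε₀ eps0) he0 (min_le_right _ _)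
    have hr : ∀ δ : ℝ, ∃ t₁ : ℝ, 0 < t₁ ∧ (0 < δ →
        Rdy k K m n Q D.F (nuX V D.T x j) (PX V x j) b (min ε₀ eps0) δ D.M l t₁) := by
      intro δ
      by_cases hδ : 0 < δ
      · obtain ⟨t₁, h1, h2⟩ := D.rdy δ hδ
        exact ⟨t₁, h1, fun _ => h2⟩
      · exact ⟨1, one_pos, fun h => absurd h hδ⟩
    choose t₁ ht₁ hr using hr
    exact ⟨(i, j, l), D.M, t₁, fun δ _ => ht₁ δ, D, rfl, hr⟩
  · rintro rho hrho - ⟨i, j, l⟩
    obtain ⟨δ, hδ, hfl⟩ := hF i j l rho hrho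
    refine ⟨δ, hδ, fun τ hτ => ?_⟩
    obtain ⟨t₀, ht₀, hfl⟩ := hfl τ hτ
    refine ⟨t₀, ht₀, fun B M t1 hBA hR ht hM => ?_⟩
    choose D hDM hDr using fun x : B => hR x x.2
    refine hfl B D (fun x => hA (hBA x.2)) (fun x => ?_) (fun x y => ?_)
    · exact (hDr x δ hδ).mono_scale (ht x x.2)
    · rw [hDM x, hDM y]
      exact hM x x.2 y y.2

/-- **[B5-COV]** -/
theorem cov_stmt (E : Type*) [NormedAddCommGroup E] [InnerProductSpace ℝ E]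
    [FiniteDimensional ℝ E] [MeasurableSpace E] [BorelSpace E] (m n : ℕ) (k K : ℝ → ℝ) (b : ℝ) :
    CovStmt E m n k K b := by
  intro hm hP hF U V hU hV
  have hcov : V.sing ⊆ {x ∈ V.sing | ¬ V.PowerFlat x} ∪
      ⋃ Q : {Q : ℕ // 1 ≤ Q}, {x ∈ V.sing | ∀ ε : ℝ, 0 < ε → ε ≤ eps0 →
        ∃ i j l : ℕ, Nonempty (Pt k K b ε V n x Q i j l)} := by
    intro x hx
    by_cases h : V.PowerFlat x
    · obtain ⟨Q, hQ, hD⟩ := hP U V hU hV x hx h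
      exact Or.inr (mem_iUnion.2 ⟨⟨Q, hQ⟩, hx, hD⟩)
    · exact Or.inl ⟨hx, h⟩
  refine (dimH_mono hcov).trans ?_
  rw [dimH_union, dimH_iUnion]
  refine max_le (dimH_not_powerFlat hm hU hV) (iSup_le fun Q => ?_)
  exact dimH_class hF hU hV Q.2 (fun x hx => hx.1.1) (fun x hx => hx.2)

end Vale.Agent.P214.BDIM
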