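import Vale.Agent.P214.DIM.Cover

/-!
# P214, target B, block [B5]: dimension from flatness at all small scales on the pinching classes
-/

open Set

namespace Vale.Agent.P214.BDIM

open Vale.Agent.P214.DIM

variable {E : Type*} [NormedAddCommGroup E] [InnerProductSpace ℝ E] [FiniteDimensional ℝ E]

/-- countably many pieces, each near `d`-planes at every point and at all small scales -/
theorem dimH_le_of_flat (A : Set E) (d : ℕ)
    (H : ∀ rho : ℝ, 0 < rho → 6 * rho < 1 → ∃ Aj : ℕ → Set E, A ⊆ ⋃ j, Aj j ∧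
      ∀ j, ∃ t0 : ℝ, 0 < t0 ∧ ∀ x ∈ Aj j, ∀ t, 0 < t → t ≤ t0 → FlatPt d rho t (Aj j) x) :
    dimH A ≤ d := by
  refine dimH_le_of_flat_exc A d fun rho h0 h1 eta heta => ?_
  obtain ⟨Aj, hcov, hA⟩ := H rho h0 h1
  refine ⟨Aj, hcov, fun j => ?_⟩
  obtain ⟨t0, ht0, hfl⟩ := hA j
  refine ⟨t0 / 2, by positivity, 0, fun _ _ => False, ?_, ?_⟩
  · intro x _ k
    simp only [and_false, setOf_false, ncard_empty, Nat.cast_zero, add_zero]
    positivity
  · intro x hx i _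
    have h2 : 0 < lev rho (t0 / 2) i := lev_pos h0 (by positivity) i
    have h3 : lev rho (t0 / 2) i ≤ t0 / 2 := by
      unfold lev
      have h4 : (6 * rho) ^ i ≤ 1 := pow_le_one₀ (by positivity) h1.le
      nlinarith
    have h5 := hfl x hx (2 * lev rho (t0 / 2) i) (by positivity) (by linarith)
    obtain ⟨L, hL, hL2⟩ := h5
    exact ⟨L, hL, fun y hy => hL2 y hy.1⟩

/-- **[B5], abstract part.** `c` is a countable class index (power decay, size of the frequency, ...),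
`M` the limit frequency, `t1 δ x` the scale below which `x` is `δ`-pinched. If, for every class, all
sets of `δ`-pinched points with `M` constant up to `δ` are near `d`-planes at small scales, then the
dimension is at most `d`. -/
theorem dimH_le_of_pinch {A : Set E} (d : ℕ) (c : E → ℕ) (M : E → ℝ) (t1 : ℝ → E → ℝ)
    (ht1 : ∀ δ, 0 < δ → ∀ x ∈ A, 0 < t1 δ x)
    (H : ∀ rho : ℝ, 0 < rho → 6 * rho < 1 → ∀ k : ℕ, ∃ δ : ℝ, 0 < δ ∧ ∀ τ : ℝ, 0 < τ →
      ∃ t0 : ℝ, 0 < t0 ∧ ∀ B : Set E, B ⊆ A → (∀ x ∈ B, c x = k) → (∀ x ∈ B, τ ≤ t1 δ x) →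
        (∀ x ∈ B, ∀ y ∈ B, |M x - M y| ≤ δ) → ∀ x ∈ B, ∀ t, 0 < t → t ≤ t0 →
          FlatPt d rho t B x) :
    dimH A ≤ d := by
  refine dimH_le_of_flat A d fun rho h0 h1 => ?_
  choose δ hδ hH using H rho h0 h1
  obtain ⟨f, hf⟩ := exists_surjective_nat (ℕ × ℕ × ℤ)
  refine ⟨fun j => {x ∈ A | c x = (f j).1 ∧ 1 / ((f j).2.1 + 1 : ℝ) ≤ t1 (δ (f j).1) x ∧
    ⌊M x / δ (f j).1⌋ = (f j).2.2}, ?_, fun j => ?_⟩
  · intro x hx
    obtain ⟨l, hl⟩ := exists_nat_one_div_lt (ht1 (δ (c x)) (hδ (c x)) x hx)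
    obtain ⟨j, hj⟩ := hf (c x, l, ⌊M x / δ (c x)⌋)
    refine mem_iUnion.2 ⟨j, hx, ?_⟩
    rw [hj]
    exact ⟨rfl, hl.le, rfl⟩
  · obtain ⟨t0, ht0, hfl⟩ := hH (f j).1 (1 / ((f j).2.1 + 1 : ℝ)) (by positivity)
    refine ⟨t0, ht0, hfl _ (fun x hx => hx.1) (fun x hx => hx.2.1) (fun x hx => hx.2.2.1) ?_⟩
    intro x hx y hy
    have h3 := hδ (f j).1
    have h4 : ⌊M x / δ (f j).1⌋ = ⌊M y / δ (f j).1⌋ := by rw [hx.2.2.2, hy.2.2.2]
    have h5 := Int.abs_sub_lt_one_of_floor_eq_floor h4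
    rw [← sub_div, abs_div, abs_of_pos h3, div_lt_one h3] at h5
    exact h5.le

end Vale.Agent.P214.BDIM
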