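import Vale.Agent.P214.BLOC.Pow

/-!
# P214, target B, block [PLANES] (helper308): planes at two near points of power flatness

`planes_pow`: `‖T_x - T_z‖² ≤ C' t^β` and `‖co T_x (z - x)‖ ≤ C' t^{1+β}` if `‖z - x‖ < t`;
`planes`: the form with a small parameter.
-/

open Set Filter Topology MeasureTheory Metric
open scoped RealInnerProductSpace ENNReal NNReal

namespace Vale.Agent.P214.BDIM

open SUB BLOC

variable {E : Type*} [NormedAddCommGroup E] [InnerProductSpace ℝ E] [FiniteDimensional ℝ E]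
  [MeasurableSpace E] [BorelSpace E]

/-- **planes at two near points of power flatness**, power form -/
theorem planes_pow (m : ℕ) {β C r₀ : ℝ} (hβ : 0 < β) (hC : 0 ≤ C) (hr₀ : 0 < r₀) :
    ∃ C' t₁ : ℝ, 0 ≤ C' ∧ 0 < t₁ ∧ ∀ (U : Set E) (V : IntegralVarifold m U), IsOpen U →
      V.IsStationary → ∀ (x z : E) (T T' : Submodule ℝ E) (Q Q' : ℕ) (t : ℝ),
      PF V x T Q β C r₀ → PF V z T' Q' β C r₀ → 0 < t → t ≤ t₁ → closedBall x (3 * t) ⊆ U →
      z ∈ V.spt → ‖z - x‖ ≤ t →
      ‖T.starProjection - T'.starProjection‖ ^ 2 ≤ C' * t ^ β ∧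
        ‖FV.co T (z - x)‖ ≤ C' * t ^ (1 + β) := by
  have hom := MU.om_pos m
  have hB : (0:ℝ) < 2 ^ β := by positivity
  -- smallness of the radius
  obtain ⟨t₂, ht₂, hsm⟩ : ∃ t₂ : ℝ, 0 < t₂ ∧ ∀ t, 0 < t → t ≤ t₂ → C * t ^ β ≤ MU.om m / 2 := by
    have h4 : Tendsto (fun r : ℝ => C * r ^ β) (𝓝 0) (𝓝 (C * 0 ^ β)) :=
      (continuous_const.mul (Real.continuous_rpow_const hβ.le)).tendsto 0
    rw [Real.zero_rpow hβ.ne', mul_zero] at h4
    obtain ⟨δ, hδ, h5⟩ := Metric.eventually_nhds_iff.1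
      (h4.eventually (gt_mem_nhds (half_pos hom)))
    refine ⟨δ / 2, half_pos hδ, fun t ht htt => (h5 ?_).le⟩
    rw [Real.dist_eq, sub_zero, abs_of_pos ht]
    linarith
  refine ⟨8 * C * 2 ^ m * 2 ^ β / MU.om m + C * 2 * 2 ^ β, min (r₀ / 2) t₂, by positivity,
    lt_min (by positivity) ht₂, ?_⟩
  intro U V hU hst x z T T' Q Q' t hx hz ht htt hball hzs hzx
  have hr1 : 2 * t ≤ r₀ := by
    have := htt.trans (min_le_left _ _)
    linarith
  have hsmt := hsm t ht (htt.trans (min_le_right _ _))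
  have htβ : 0 < t ^ β := Real.rpow_pos_of_pos ht β
  have htm : 0 < t ^ m := pow_pos ht m
  obtain ⟨hT, hQ, -, -, h5⟩ := hx
  obtain ⟨hT', hQ', -, -, h5'⟩ := hz
  have hA := h5 (2 * t) (by positivity) hr1
  have hZ := h5' t ht (by linarith)
  constructor
  · -- integrability
    have hfin := V.finite_restrict hball
    have hls := V.locStat hst hball
    have hsub : ball z t ⊆ closedBall x (3 * t) := by
      intro y hy
      rw [mem_ball, dist_eq_norm] at hy
      rw [mem_closedBall, dist_eq_norm]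
      calc ‖y - x‖ = ‖(y - z) + (z - x)‖ := by congr 1; abel
        _ ≤ ‖y - z‖ + ‖z - x‖ := norm_add_le _ _
        _ ≤ 3 * t := by linarith
    have hsub2 : ball z t ⊆ ball x (2 * t) := by
      intro y hy
      rw [mem_ball, dist_eq_norm] at hy ⊢
      calc ‖y - x‖ = ‖(y - z) + (z - x)‖ := by congr 1; abel
        _ ≤ ‖y - z‖ + ‖z - x‖ := norm_add_le _ _
        _ < 2 * t := by linarith
    have hsub3 : ball x (2 * t) ⊆ closedBall x (3 * t) :=
      ball_subset_closedBall.trans (closedBall_subset_closedBall (by linarith))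
    have hint : ∀ (S : Submodule ℝ E) (y : E) (s : ℝ), ball y s ⊆ closedBall x (3 * t) →
        IntegrableOn (fun p => ‖proj (V.tangent p) - proj S‖ ^ 2) (ball y s) V.weight := by
      intro S y s hs
      have h3 := hls.integrableOn_tiltsq (proj S) (ball y s)
      unfold IntegrableOn at h3 ⊢
      rwa [Measure.restrict_restrict measurableSet_ball, inter_eq_left.2 hs] at h3
    have hi1 := hint T x (2 * t) hsub3
    have hi2 := hint T z t hsub
    have hi3 := hint T' z t hsub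
    have hfinb : V.weight (ball z t) ≠ ⊤ := by
      refine ((measure_mono hsub).trans_lt ?_).ne
      exact V.locFinite _ hball (isCompact_closedBall x (3 * t))
    have : IsFiniteMeasure (V.weight.restrict (ball z t)) := ⟨by
      rw [Measure.restrict_apply_univ]; exact hfinb.lt_top⟩
    set D := ‖T.starProjection - T'.starProjection‖ ^ 2 with hD
    have hD0 : 0 ≤ D := sq_nonneg _
    have h3 : ∫ _y in ball z t, D ∂V.weight ≤ ∫ y in ball z t,
        (2 * ‖proj (V.tangent y) - proj T‖ ^ 2 + 2 * ‖proj (V.tangent y) - proj T'‖ ^ 2)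
        ∂V.weight := by
      refine integral_mono (integrable_const _) ((hi2.const_mul 2).add (hi3.const_mul 2))
        fun y => ?_
      have e : T.starProjection - T'.starProjection
          = (proj (V.tangent y) - proj T') - (proj (V.tangent y) - proj T) := by
        unfold proj; abel
      have h4 : ‖T.starProjection - T'.starProjection‖
          ≤ ‖proj (V.tangent y) - proj T'‖ + ‖proj (V.tangent y) - proj T‖ := by
        rw [e]; exact norm_sub_le _ _
      have h5 := pow_le_pow_left₀ (norm_nonneg _) h4 2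
      simp only [hD]
      nlinarith [sq_nonneg (‖proj (V.tangent y) - proj T'‖ - ‖proj (V.tangent y) - proj T‖)]
    rw [integral_add (hi2.const_mul 2) (hi3.const_mul 2), integral_const_mul, integral_const_mul,
      setIntegral_const, smul_eq_mul] at h3
    have h4 : ∫ y in ball z t, ‖proj (V.tangent y) - proj T‖ ^ 2 ∂V.weight
        ≤ C * (2 * t) ^ ((m : ℝ) + β) :=
      (setIntegral_mono_set hi1 (Eventually.of_forall fun y => by
        simp only [Pi.zero_apply]; positivity) (Eventually.of_forall hsub2)).trans hA.2.1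
    have h6 := hZ.2.1
    rw [rpow_nat_add (by positivity), two_rpow ht.le, mul_pow] at h4
    rw [rpow_nat_add ht] at h6
    -- mass
    have h7 := hZ.2.2
    rw [DIM.real_plane_ball hT' ht, rpow_nat_add ht] at h7
    have h8 := (abs_le.1 h7).1
    have hQ1 : (1:ℝ) ≤ Q' := by exact_mod_cast hQ'
    have h9 : MU.om m / 2 * t ^ m ≤ V.weight.real (ball z t) := by
      have e1 : MU.om m * t ^ m ≤ Q' * (MU.om m * t ^ m) := by
        have : 0 ≤ MU.om m * t ^ m := by positivity
        nlinarith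
      have e2 : C * (t ^ m * t ^ β) ≤ MU.om m / 2 * t ^ m := by
        calc C * (t ^ m * t ^ β) = (C * t ^ β) * t ^ m := by ring
          _ ≤ _ := by gcongr
      linarith
    have h10 : MU.om m / 2 * t ^ m * D ≤ 4 * C * (2 ^ m * 2 ^ β) * (t ^ m * t ^ β) := by
      have e1 : (1:ℝ) ≤ 2 ^ m := one_le_pow₀ (by norm_num)
      have e2 : (1:ℝ) ≤ 2 ^ β := Real.one_le_rpow (by norm_num) hβ.le
      have e3 : (1:ℝ) ≤ 2 ^ m * 2 ^ β := by nlinarith
      have e4 : C * (t ^ m * t ^ β) ≤ C * (2 ^ m * 2 ^ β) * (t ^ m * t ^ β) := by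
        have : 0 ≤ C * (t ^ m * t ^ β) := by positivity
        nlinarith
      calc MU.om m / 2 * t ^ m * D ≤ V.weight.real (ball z t) * D := by gcongr
        _ ≤ _ := h3
        _ ≤ 2 * (C * (2 ^ m * t ^ m * (2 ^ β * t ^ β))) + 2 * (C * (t ^ m * t ^ β)) := by
            gcongr
        _ ≤ 2 * (C * (2 ^ m * t ^ m * (2 ^ β * t ^ β)))
            + 2 * (C * (2 ^ m * 2 ^ β) * (t ^ m * t ^ β)) := by gcongr
        _ = _ := by ring
    have h11 : D * (MU.om m / 2 * t ^ m) ≤
        (8 * C * 2 ^ m * 2 ^ β / MU.om m * t ^ β) * (MU.om m / 2 * t ^ m) := by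
      calc D * (MU.om m / 2 * t ^ m) = MU.om m / 2 * t ^ m * D := by ring
        _ ≤ _ := h10
        _ = _ := by field_simp; ring
    have h12 := le_of_mul_le_mul_right h11 (by positivity)
    refine h12.trans ?_
    gcongr
    have : 0 ≤ C * 2 * 2 ^ β := by positivity
    linarith
  · have h1 := hA.1 z ⟨hzs, by rw [mem_ball, dist_eq_norm]; linarith⟩
    rw [rpow_one_add (by positivity), two_rpow ht.le] at h1
    rw [rpow_one_add ht]
    have h2 : 0 ≤ 8 * C * 2 ^ m * 2 ^ β / MU.om m := by positivity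
    calc ‖FV.co T (z - x)‖ ≤ C * (2 * t * (2 ^ β * t ^ β)) := h1
      _ = (0 + C * 2 * 2 ^ β) * (t * t ^ β) := by ring
      _ ≤ _ := by gcongr

/-- **[PLANES]**, form with a small parameter -/
theorem planes (m : ℕ) {β C r₀ : ℝ} (hβ : 0 < β) (hC : 0 ≤ C) (hr₀ : 0 < r₀) {η : ℝ}
    (hη : 0 < η) :
    ∃ t₀ : ℝ, 0 < t₀ ∧ ∀ (U : Set E) (V : IntegralVarifold m U), IsOpen U →
      V.IsStationary → ∀ (x z : E) (T T' : Submodule ℝ E) (Q Q' : ℕ) (t : ℝ),
      PF V x T Q β C r₀ → PF V z T' Q' β C r₀ → 0 < t → t ≤ t₀ → closedBall x (3 * t) ⊆ U →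
      z ∈ V.spt → ‖z - x‖ ≤ t →
      ‖T.starProjection - T'.starProjection‖ ≤ η ∧ ‖FV.co T (z - x)‖ ≤ η * t := by
  obtain ⟨C', t₁, hC', ht₁, h⟩ := planes_pow (E := E) m hβ hC hr₀
  obtain ⟨t₂, ht₂, hsm⟩ : ∃ t₂ : ℝ, 0 < t₂ ∧ ∀ t, 0 < t → t ≤ t₂ → C' * t ^ β ≤ min η (η ^ 2) := by
    have h4 : Tendsto (fun r : ℝ => C' * r ^ β) (𝓝 0) (𝓝 (C' * 0 ^ β)) :=
      (continuous_const.mul (Real.continuous_rpow_const hβ.le)).tendsto 0
    rw [Real.zero_rpow hβ.ne', mul_zero] at h4
    obtain ⟨δ, hδ, h5⟩ := Metric.eventually_nhds_iff.1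
      (h4.eventually (gt_mem_nhds (lt_min hη (by positivity : 0 < η ^ 2))))
    refine ⟨δ / 2, half_pos hδ, fun t ht htt => (h5 ?_).le⟩
    rw [Real.dist_eq, sub_zero, abs_of_pos ht]
    linarith
  refine ⟨min t₁ t₂, lt_min ht₁ ht₂, ?_⟩
  intro U V hU hst x z T T' Q Q' t hx hz ht htt hball hzs hzx
  obtain ⟨h1, h2⟩ := h U V hU hst x z T T' Q Q' t hx hz ht (htt.trans (min_le_left _ _)) hball
    hzs hzx
  have h3 := hsm t ht (htt.trans (min_le_right _ _))
  constructor
  · exact (pow_le_pow_iff_left₀ (norm_nonneg _) hη.le two_ne_zero).1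
      (h1.trans (h3.trans (min_le_right _ _)))
  · rw [rpow_one_add ht] at h2
    calc ‖FV.co T (z - x)‖ ≤ C' * (t * t ^ β) := h2
      _ = (C' * t ^ β) * t := by ring
      _ ≤ η * t := by
          gcongr
          exact h3.trans (min_le_left _ _)

end Vale.Agent.P214.BDIM
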