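import Vale.Agent.P214.BDIM.OneProp
import Vale.Agent.P214.BDIM.Planes
import Vale.Agent.P214.BTR.Local
import Vale.Agent.P214.BCS.Flat

/-!
# P214, target B, block [B5-FLAT] (helper224): `FlatStmt` from `OneStmt` and `TwoStmt`
-/

open Set Filter Topology MeasureTheory Metric
open scoped RealInnerProductSpace ENNReal ContDiff

namespace Vale.Agent.P214.BDIM

open WIN STR FM DIM SCALE SUB

variable {m n Q : ℕ} {E : Type*} [NormedAddCommGroup E] [InnerProductSpace ℝ E]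
  [FiniteDimensional ℝ E] [MeasurableSpace E] [BorelSpace E]

/-- restriction of the base -/
lemma cylF_sub {T : Submodule ℝ E} {w : E → E} {h₁ h : ℝ} {G G' : Set E} {μ : Measure E}
    {R : E → E →L[ℝ] E} (hC : CylF m T w h₁ G h μ R) (hG' : IsOpen G') (hGG : G' ⊆ G) :
    CylF m T w h₁ G' h μ R :=
  ⟨hC.fin, hC.meas, hC.proj, hC.dimT, hG', hC.slab.mono fun _ hy h => hy (hGG h), hC.lt,
    fun Z hZ hb => hC.stat Z hZ (hb.mono hGG)⟩

/-- an active reference on a shorter interval -/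
theorem Act.sub {T : Submodule ℝ E} {F : Frame m n T} {ν : Measure E} {P : E → E →L[ℝ] E}
    {b ε η : ℝ} {u : Fin n → REF.E m → ℝ} {h₁ κ ta tb ta' tb' : ℝ}
    (A : Act m n Q F ν P b ε η u h₁ κ ta tb) (h1 : ta ≤ ta') (h2 : tb' ≤ tb) :
    Act m n Q F ν P b ε η u h₁ κ ta' tb' := by
  have hb : ball (0 : E) (2 * tb') ⊆ ball 0 (2 * tb) := ball_subset_ball (by linarith)
  refine ⟨A.adm, ?_, ?_, ?_, ?_, ?_, ?_, ?_, ?_, ?_, A.tube_le.trans h1, ?_⟩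
  · obtain ⟨h, hh, hC⟩ := A.cyl
    exact ⟨h, hh, cylF_sub hC isOpen_ball hb⟩
  · exact fun y hy => A.minimal y (hb hy)
  · exact (mul_le_mul_of_nonneg_left h2 A.adm.ref.knn).trans A.curv
  · exact fun t ht ht' => A.slp t (h1.trans ht) (ht'.trans h2)
  · exact fun t ht ht' => A.pos t (h1.trans ht) (ht'.trans h2)
  · exact fun t ht ht' => A.le t (h1.trans ht) (ht'.trans h2)
  · exact fun t ht ht' => A.at_ t (h1.trans ht) (ht'.trans h2)
  · exact fun t ht ht' => A.thin t (h1.trans ht) (ht'.trans h2)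
  · exact fun t ht ht' => A.tube t (h1.trans ht) (ht'.trans h2)
  · exact fun t ht ht' => A.coarse t (h1.trans ht) (ht'.trans h2)

/-- the scales chosen by `Rdy` with the ratio `2 ^ 26` (for `x`) and `2 ^ 7` (for `z`) -/
lemma RdyAt.dbl3 {k K : ℝ → ℝ} {T : Submodule ℝ E} {F : Frame m n T} {ν : Measure E}
    {P : E → E →L[ℝ] E} {b ε η M Λ : ℝ} {u : Fin n → REF.E m → ℝ} {h₁ κ ta tb s : ℝ}
    (R : RdyAt k K m n Q F ν P b ε η M Λ u h₁ κ ta tb) (hΛ : 0 ≤ Λ) (hs : 0 ≤ s)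
    (h1 : ta ≤ s / 8) (h2 : s ≤ tb) :
    hN m T (F.lift u) ν s ≤ Λ ^ 3 * hN m T (F.lift u) ν (s / 8) := by
  have e1 := R.dblN (s / 8) h1 (by linarith)
  have e2 := R.dblN (s / 4) (by linarith) (by linarith)
  have e3 := R.dblN (s / 2) (by linarith) (by linarith)
  rw [show 2 * (s / 8) = s / 4 by ring] at e1
  rw [show 2 * (s / 4) = s / 2 by ring] at e2
  rw [show 2 * (s / 2) = s by ring] at e3
  calc hN m T (F.lift u) ν s ≤ Λ * hN m T (F.lift u) ν (s / 2) := e3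
    _ ≤ Λ * (Λ * hN m T (F.lift u) ν (s / 4)) := mul_le_mul_of_nonneg_left e2 hΛ
    _ ≤ Λ * (Λ * (Λ * hN m T (F.lift u) ν (s / 8))) :=
        mul_le_mul_of_nonneg_left (mul_le_mul_of_nonneg_left e1 hΛ) hΛ
    _ = _ := by ring

/-- nonnegativity of the tilt energy -/
lemma gw_nonneg {k k' K : ℝ → ℝ} {B : ℝ} (hk : INST.Ker k k' K B) {T : Submodule ℝ E}
    {F : Frame m n T} {ν : Measure E} {P : E → E →L[ℝ] E} {b ε η : ℝ} {u : Fin n → REF.E m → ℝ}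
    {h₁ κ ta tb : ℝ} (A : Act m n Q F ν P b ε η u h₁ κ ta tb) {t : ℝ} (ht : 0 < t) :
    0 ≤ gw m T ν P K h₁ (F.lift u) t := by
  obtain ⟨h, _, hC⟩ := A.cyl
  exact hC.gF_nonneg (z := 0) A.adm hk.kb.kern ht


/-- the body of `TwoStmt` for one pair of points and fixed constants -/
def TwoAt (m n Q : ℕ) (k K : ℝ → ℝ) (b ε D A η' η : ℝ) {T T' : Submodule ℝ E} (F : Frame m n T)
    (F' : Frame m n T') (ν ν' : Measure E) (P P' : E → E →L[ℝ] E) (c : E)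
    (u u' : Fin n → REF.E m → ℝ) (h₁ h₁' κ κ' : ℝ) : Prop :=
  ∀ s β₀ : ℝ, 0 < s → s ≤ η → 0 < β₀ → ‖c‖ ≤ s / 64 → ‖FV.co T c‖ ≤ η * s →
    ‖T.starProjection - T'.starProjection‖ ≤ η →
    BLOC.LocB m Q T ν P β₀ (1 / 64) → BLOC.LocB m Q T' ν' P' β₀ (1 / 64) →
    Nb ν P ν' P' c (3 / 16) →
    Act m n Q F ν P b ε η u h₁ κ (s / 64) s → Act m n Q F' ν' P' b ε η u' h₁' κ' (s / 64) s →
    hN m T (F.lift u) ν s ≤ D * hN m T (F.lift u) ν (s / 8) →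
    hN m T' (F'.lift u') ν' s ≤ D * hN m T' (F'.lift u') ν' (s / 8) →
    INST.Hw m T' ν' k h₁' (F'.lift u') (s / 16) ≤ A * INST.Hw m T ν k h₁ (F.lift u) (s / 4) ∧
    ∀ N : ℝ, BCS.pinF m T (F.lift u) h₁ c k K (fP T (F.lift u) h₁ P) (fmeas T (F.lift u) h₁ ν) N
        (s / 32) ≤
      A * BCS.pinF m T' (F'.lift u') h₁' 0 k K (fP T' (F'.lift u') h₁' P')
        (fmeas T' (F'.lift u') h₁' ν') N (s / 16) +
      η' * (1 + N ^ 2) * (INST.Hw m T ν k h₁ (F.lift u) (s / 4) +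
        gw m T ν P K h₁ (F.lift u) (s / 4))

/-- **the pair estimate**: the pinching at the second point, transferred to the chart of the
first -/
lemma pair_core {k k' K : ℝ → ℝ} {B b : ℝ} (hk : INST.Ker k k' K B) {T T' : Submodule ℝ E}
    {F : Frame m n T} {F' : Frame m n T'} {ν ν' : Measure E} {P P' : E → E →L[ℝ] E} {c : E}
    {ε δ M M' L0 A Dx del : ℝ} {u u' : Fin n → REF.E m → ℝ} {h₁ h₁' κ κ' S sz s1 β₀ : ℝ}
    (hRx : RdyAt k K m n Q F ν P b ε δ M L0 u h₁ κ S (2 ^ 26 * S))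
    (hRz : RdyAt k K m n Q F' ν' P' b ε δ M' L0 u' h₁' κ' sz (2 ^ 7 * sz))
    (hsz : sz = 8 * S ∨ sz = 64 * 2 ^ 7 * (8 * S)) (hS : 0 < S) (hL0 : 1 ≤ L0)
    (hMM : |M - M'| ≤ δ) (hM1 : 1 ≤ M') (hML : M' ≤ L0) (hδ0 : 0 < δ) (hδ1 : δ ≤ 1)
    (hSδ : 2 ^ 23 * S ≤ δ) (hβ₀ : 0 < β₀) (hc : ‖c‖ ≤ S) (hco : ‖FV.co T c‖ ≤ δ * S)
    (hTT : ‖T.starProjection - T'.starProjection‖ ≤ δ)
    (loc : BLOC.LocB m Q T ν P β₀ (1 / 64)) (loc' : BLOC.LocB m Q T' ν' P' β₀ (1 / 64))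
    (nb : Nb ν P ν' P' c (3 / 16)) (hDx : 1 ≤ Dx) (hA : 1 ≤ A) (hdel : 0 < del)
    (hHg : ∀ x, 32 * S ≤ x → x ≤ 2 ^ 21 * S →
      INST.Hw m T ν k h₁ (F.lift u) x + gw m T ν P K h₁ (F.lift u) x ≤
        Dx * INST.Hw m T ν k h₁ (F.lift u) s1)
    (hδA : δ ≤ del / (2 * Dx * A ^ 2))
    (hT : TwoAt m n Q k K b ε (L0 ^ 3) A (del / (2 * Dx * (1 + (L0 + 1) ^ 2))) δ F F' ν ν' P P' c
      u u' h₁ h₁' κ κ') :
    ∃ N' s', 16 * S ≤ s' ∧ s' ≤ 2 ^ 18 * S ∧ |N' - M| ≤ 2 * δ ∧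
      BCS.pinF m T (F.lift u) h₁ c k K (fP T (F.lift u) h₁ P) (fmeas T (F.lift u) h₁ ν) N' s' ≤
        del * INST.Hw m T ν k h₁ (F.lift u) s1 := by
  have hsz0 : 8 * S ≤ sz := by rcases hsz with h | h <;> rw [h] <;> linarith
  have hsz1 : sz ≤ 2 ^ 16 * S := by rcases hsz with h | h <;> rw [h] <;> linarith
  obtain ⟨r, N, hr1, hr2, hN, _, hpin⟩ := hRz.pinch (4 * sz) (by linarith) (by linarith)
  set s : ℝ := 16 * r with hs
  have hs16 : s / 16 = r := by rw [hs]; ring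
  have h64 : sz ≤ s / 64 := by rw [hs]; linarith
  have h128 : s ≤ 2 ^ 7 * sz := by rw [hs]; linarith
  have hs0 : 0 < s := by linarith
  have hx1 : S ≤ s / 64 := by linarith
  have hx2 : s ≤ 2 ^ 23 * S := by linarith
  have aX := hRx.act.sub (ta' := s / 64) (tb' := s) hx1 (by linarith)
  have aZ := hRz.act.sub (ta' := s / 64) (tb' := s) h64 h128
  have dX := hRx.dbl3 (by linarith) hs0.le (by linarith : S ≤ s / 8) (by linarith)
  have dZ := hRz.dbl3 (by linarith) hs0.le (by linarith : sz ≤ s / 8) h128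
  obtain ⟨hH, hpinx⟩ := hT s β₀ hs0 (hx2.trans hSδ) hβ₀ (hc.trans hx1)
    (hco.trans (mul_le_mul_of_nonneg_left (by linarith) hδ0.le)) hTT loc loc' nb aX aZ dX dZ
  have hHx := hHg (s / 4) (by linarith) (by linarith)
  have hg := gw_nonneg hk hRx.act (t := s / 4) (by linarith)
  have hHp : 0 < INST.Hw m T ν k h₁ (F.lift u) (s / 4) := hRx.Hpos _ (by linarith) (by linarith)
  set Hx := INST.Hw m T ν k h₁ (F.lift u) (s / 4) with hHxd
  set gx := gw m T ν P K h₁ (F.lift u) (s / 4) with hgxd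
  set H1 := INST.Hw m T ν k h₁ (F.lift u) s1 with hH1d
  have hH1 : 0 < Dx * H1 := by linarith
  have hH1' : 0 < H1 := by
    by_contra h
    push Not at h
    nlinarith
  have h1 := hpinx N
  rw [hs16] at h1 hH
  set pZ := BCS.pinF m T' (F'.lift u') h₁' 0 k K (fP T' (F'.lift u') h₁' P')
      (fmeas T' (F'.lift u') h₁' ν') N r with hpZ
  have hA2 : A * pZ ≤ del / 2 * H1 := by
    calc A * pZ ≤ A * (δ * INST.Hw m T' ν' k h₁' (F'.lift u') r) :=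
          mul_le_mul_of_nonneg_left hpin (by linarith)
      _ ≤ A * (δ * (A * Hx)) := by gcongr
      _ ≤ A * (δ * (A * (Dx * H1))) := by
          have : Hx ≤ Dx * H1 := by linarith
          gcongr
      _ ≤ A * (del / (2 * Dx * A ^ 2) * (A * (Dx * H1))) := by gcongr
      _ = del / 2 * H1 := by
          have : A ≠ 0 := by linarith
          have : Dx ≠ 0 := by linarith
          field_simp
  have hNM : |N - M| ≤ 2 * δ := by
    calc |N - M| = |(N - M') - (M - M')| := by congr 1; ring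
      _ ≤ |N - M'| + |M - M'| := abs_sub _ _
      _ ≤ 2 * δ := by linarith
  have hN2 : 1 + N ^ 2 ≤ 1 + (L0 + 1) ^ 2 := by
    have h3 := abs_le.1 hN
    have h4 : N ≤ L0 + 1 := by linarith [h3.2]
    have h5 : 0 ≤ N := by linarith [h3.1]
    gcongr
  have hB2 : del / (2 * Dx * (1 + (L0 + 1) ^ 2)) * (1 + N ^ 2) * (Hx + gx) ≤ del / 2 * H1 := by
    calc del / (2 * Dx * (1 + (L0 + 1) ^ 2)) * (1 + N ^ 2) * (Hx + gx)
        ≤ del / (2 * Dx * (1 + (L0 + 1) ^ 2)) * (1 + (L0 + 1) ^ 2) * (Dx * H1) := by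
          gcongr
      _ = del / 2 * H1 := by
          have : Dx ≠ 0 := by linarith
          have : 1 + (L0 + 1) ^ 2 ≠ 0 := by positivity
          field_simp
  refine ⟨N, s / 32, by linarith, by linarith, hNM, ?_⟩
  calc _ ≤ _ := h1
    _ ≤ del / 2 * H1 + del / 2 * H1 := add_le_add hA2 hB2
    _ = del * H1 := by ring

/-- **[B5-FLAT]** from the statement for one centre and the statement for two centres -/
theorem flatStmt_of {k k' K : ℝ → ℝ} {B b : ℝ} (hk : INST.Ker k k' K B)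
    (hOne : ∀ Q : ℕ, 1 ≤ Q → OneStmt E m n Q k K b)
    (hTwo : ∀ Q : ℕ, 1 ≤ Q → TwoStmt E m n Q k K b) : FlatStmt E m n k K b := by
  intro Q hQ
  obtain ⟨ε₀, hε₀, hT⟩ := hTwo Q hQ
  refine ⟨ε₀, hε₀, ?_⟩
  intro ε hε hεε U V hU hst i j l ρ hρ
  rcases Nat.eq_zero_or_pos l with rfl | hl
  · refine ⟨1, one_pos, fun t₁ ht₁ => ⟨1, one_pos, ?_⟩⟩
    intro B' D _ _ _ x hx
    have h1 := (D ⟨x, hx⟩).one_le
    have h2 := (D ⟨x, hx⟩).le
    exfalso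
    have h3 := h1.trans h2
    norm_num at h3
  have hl1 : (1 : ℝ) ≤ l := by exact_mod_cast hl
  obtain ⟨Dx, hDx, hO⟩ := hOne Q hQ (l : ℝ) hl1
  have hDx0 : 0 < Dx := by linarith
  set del : ℝ := (ρ / 2 ^ 33) ^ 2 / Dx with hdel
  have hdel0 : 0 < del := by positivity
  have hsq : √(Dx * del) = ρ / 2 ^ 33 := by
    rw [hdel, mul_div_cancel₀ _ hDx0.ne']
    exact Real.sqrt_sq (by positivity)
  obtain ⟨ηO, hηO, hO⟩ := hO del hdel0
  obtain ⟨A, hA, hT⟩ := hT ε hε hεε ((l : ℝ) ^ 3) (one_le_pow₀ hl1)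
  have hA0 : 0 < A := by linarith
  have hη' : 0 < del / (2 * Dx * (1 + ((l : ℝ) + 1) ^ 2)) := by positivity
  obtain ⟨ηT, hηT, hT⟩ := hT _ hη'
  obtain ⟨δ, hδ0, hδO, hδT, hδ1, hδA⟩ : ∃ δ : ℝ, 0 < δ ∧ δ ≤ ηO ∧ δ ≤ ηT ∧ δ ≤ 1 ∧
      δ ≤ del / (2 * Dx * A ^ 2) :=
    ⟨min (min ηO ηT) (min 1 (del / (2 * Dx * A ^ 2))),
      lt_min (lt_min hηO hηT) (lt_min one_pos (by positivity)),
      (min_le_left _ _).trans (min_le_left _ _), (min_le_left _ _).trans (min_le_right _ _),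
      (min_le_right _ _).trans (min_le_left _ _), (min_le_right _ _).trans (min_le_right _ _)⟩
  refine ⟨δ, hδ0, fun t₁ ht₁ => ?_⟩
  have hi0 : (0 : ℝ) < 1 / ((i : ℝ) + 1) := by positivity
  have hlam : (0 : ℝ) < (3 / 8) / (1 / 2) ^ j := by positivity
  obtain ⟨lam, hlamd⟩ : ∃ lam : ℝ, lam = (3 / 8) / (1 / 2) ^ j := ⟨_, rfl⟩
  have hlam0 : 0 < lam := by rw [hlamd]; exact hlam
  have hr1 : (0 : ℝ) < (1 / 2) ^ j := by positivity
  obtain ⟨tp, htp, hP⟩ := planes (E := E) m (C := (i : ℝ)) hi0 (by positivity) hi0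
    (lt_min hδ0 (half_pos hρ))
  refine ⟨min (min (δ / (2 ^ 55 * lam)) (t₁ / (2 ^ 35 * lam))) (min ((1 / 2) ^ j / 2) tp),
    lt_min (lt_min (by positivity) (by positivity)) (lt_min (by positivity) htp), ?_⟩
  intro B' D hsp hR hM x hx t ht htt
  have ht1 : t ≤ δ / (2 ^ 55 * lam) := htt.trans ((min_le_left _ _).trans (min_le_left _ _))
  have ht2 : t ≤ t₁ / (2 ^ 35 * lam) := htt.trans ((min_le_left _ _).trans (min_le_right _ _))
  have ht3 : t ≤ (1 / 2) ^ j / 2 := htt.trans ((min_le_right _ _).trans (min_le_left _ _))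
  have ht4 : t ≤ tp := htt.trans ((min_le_right _ _).trans (min_le_right _ _))
  rw [le_div_iff₀ (by positivity)] at ht1 ht2
  have hlt0 : 0 < lam * t := mul_pos hlam0 ht
  have htd : 2 ^ 55 * (lam * t) ≤ δ := by linarith
  have htd2 : 2 ^ 35 * (lam * t) ≤ t₁ := by linarith
  -- the reference at `x`
  obtain ⟨S, hSS, u, h₁, κ, Rx⟩ := hR ⟨x, hx⟩ (2 ^ 26) (lam * t) (by norm_num) (by norm_num) hlt0
    (by linarith)
  have hS1 : lam * t ≤ S := by rcases hSS with h | h <;> rw [h] <;> linarith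
  have hS2 : S ≤ 2 ^ 32 * (lam * t) := by rcases hSS with h | h <;> rw [h] <;> linarith
  have hS0 : 0 < S := by linarith
  obtain ⟨s1, L, _, _, hLT, hfr, hHg, hcone⟩ := hO _ _ _ _ ε δ _ u h₁ κ S hδ0 hδO hS0
    (D ⟨x, hx⟩).one_le (D ⟨x, hx⟩).le Rx
  have hball : closedBall x (3 * t) ⊆ U :=
    (closedBall_subset_closedBall (by linarith)).trans (D ⟨x, hx⟩).ball
  -- the planes
  have hpl : ∀ z, (hz : z ∈ B') → dist z x ≤ t →
      ‖(D ⟨x, hx⟩).T.starProjection - (D ⟨z, hz⟩).T.starProjection‖ ≤ min δ (ρ / 2) ∧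
        ‖FV.co (D ⟨x, hx⟩).T (z - x)‖ ≤ min δ (ρ / 2) * t := by
    intro z hz hzx
    rw [dist_eq_norm] at hzx
    exact hP U V hU hst x z _ _ Q Q t (D ⟨x, hx⟩).pf (D ⟨z, hz⟩).pf ht ht4 hball (hsp ⟨z, hz⟩)
      hzx
  refine BCS.flatPt_of_proj hLT hfr ?_ ?_
  · intro z hz hzx
    have h1 := (hpl z hz hzx).2
    rw [FV.co_apply] at h1
    exact h1.trans (mul_le_mul_of_nonneg_right (min_le_right _ _) ht.le)
  intro z hz hzx
  obtain ⟨hTT, hco⟩ := hpl z hz hzx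
  have hzx' : ‖z - x‖ ≤ t := by rw [← dist_eq_norm]; exact hzx
  -- the reference at `z`
  obtain ⟨sz, hsz, u', h₁', κ', Rz⟩ := hR ⟨z, hz⟩ (2 ^ 7) (8 * S) (by norm_num) (by norm_num)
    (by linarith) (by linarith)
  have hnb : Nb (nuX V (D ⟨x, hx⟩).T x j) (PX V x j) (nuX V (D ⟨z, hz⟩).T z j) (PX V z j)
      (lam • (z - x)) (3 / 16) := by
    constructor
    · have h1 := BTR.two_centres (V := V) (T₁ := (D ⟨x, hx⟩).T) (T₂ := (D ⟨z, hz⟩).T) hr1 hlam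
        (hzx'.trans ht3)
      rw [show (3 / 8) / (1 / 2) ^ j * ((1 / 2) ^ j / 2) = (3 / 16 : ℝ) by field_simp; norm_num]
        at h1
      rw [hlamd]
      exact h1
    · rw [hlamd]
      exact BTR.trP_two hlam V x z
  have hc : ‖lam • (z - x)‖ ≤ S := by
    rw [norm_smul, Real.norm_eq_abs, abs_of_pos hlam0]
    exact (mul_le_mul_of_nonneg_left hzx' hlam0.le).trans hS1
  have hco' : ‖FV.co (D ⟨x, hx⟩).T (lam • (z - x))‖ ≤ δ * S := by
    rw [map_smul, norm_smul, Real.norm_eq_abs, abs_of_pos hlam0]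
    calc lam * ‖FV.co (D ⟨x, hx⟩).T (z - x)‖ ≤ lam * (δ * t) :=
          mul_le_mul_of_nonneg_left
            (hco.trans (mul_le_mul_of_nonneg_right (min_le_left _ _) ht.le)) hlam0.le
      _ = δ * (lam * t) := by ring
      _ ≤ δ * S := mul_le_mul_of_nonneg_left hS1 hδ0.le
  obtain ⟨N', s', hs1, hs2, hN', hp⟩ := pair_core hk Rx Rz hsz hS0 hl1
    (hM ⟨x, hx⟩ ⟨z, hz⟩) (D ⟨z, hz⟩).one_le (D ⟨z, hz⟩).le hδ0 hδ1 (by linarith) hi0 hc hco'
    (hTT.trans (min_le_left _ _)) (D ⟨x, hx⟩).loc (D ⟨z, hz⟩).loc hnb hDx hA hdel0 hHg hδA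
    (fun s β₀ => hT δ hδ0 hδT _ _ _ _ _ _ _ _ _ _ _ _ _ _ _ s β₀)
  have hpc : ‖(D ⟨x, hx⟩).T.starProjection (lam • (z - x))‖ ≤ 2 * S :=
    (FV.norm_star_le _ _).trans (by linarith)
  have hfin := hcone _ N' s' hs1 hs2 hpc hN' hp
  rw [hsq, map_smul, map_smul, ← smul_sub, norm_smul, Real.norm_eq_abs, abs_of_pos hlam0] at hfin
  rw [← map_sub]
  have h3 : lam * ‖(D ⟨x, hx⟩).T.starProjection (z - x) -
      L.starProjection ((D ⟨x, hx⟩).T.starProjection (z - x))‖ ≤ lam * (ρ / 2 * t) := by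
    refine hfin.trans ?_
    calc ρ / 2 ^ 33 * S ≤ ρ / 2 ^ 33 * (2 ^ 32 * (lam * t)) := by gcongr
      _ = lam * (ρ / 2 * t) := by ring
  exact le_of_mul_le_mul_left h3 hlam0

end Vale.Agent.P214.BDIM
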