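import Vale.Agent.P214.BDIM.Flat
import Vale.Agent.P214.BDIM.CovFin
import Vale.Agent.P214.INST.Ker3

/-!
# P214, target B: the final theorem from `PtStmt`, `OneStmt`, `TwoStmt`
-/

open Set Filter Topology MeasureTheory Metric
open scoped RealInnerProductSpace ENNReal ContDiff

namespace Vale.Agent.P214.BDIM

variable {E : Type*} [NormedAddCommGroup E] [InnerProductSpace ℝ E]
  [FiniteDimensional ℝ E] [MeasurableSpace E] [BorelSpace E]

/-- the final theorem, from the three statements (kernels `k3`, `K3`, exponent `3/4`) -/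
theorem dimH_sing_le_of {m n : ℕ} (hm : 1 ≤ m) (hPt : PtStmt E m n ODEW.k3 ODEW.K3 (3 / 4))
    (hOne : ∀ Q : ℕ, 1 ≤ Q → OneStmt E m n Q ODEW.k3 ODEW.K3 (3 / 4))
    (hTwo : ∀ Q : ℕ, 1 ≤ Q → TwoStmt E m n Q ODEW.k3 ODEW.K3 (3 / 4)) {U : Set E}
    (hU : IsOpen U) (V : IntegralVarifold m U) (hV : V.IsStationary) :
    dimH V.sing ≤ ((m - 1 : ℕ) : ℝ≥0∞) :=
  cov_stmt E m n _ _ _ hm hPt (flatStmt_of INST.ker3 hOne hTwo) U V hU hV

end Vale.Agent.P214.BDIM
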