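import Vale.Agent.P214.BDIM.ActL
import Vale.Agent.P214.BDIM.ActU
import Vale.Agent.P214.BTWO.LiftC
import Vale.Agent.P214.BTWO.Loc
import Vale.Agent.P214.BTWO.Comp
import Vale.Agent.P214.BTWO.MassB
import Vale.Agent.P214.BPIN.Fin
import Vale.Agent.P214.BTR.Restr

/-!
# P214, target B, block [B4]: two centres, assembly

`two_stmt : TwoStmt E m n Q k K b` for `b ≥ 3/4`: transfer of the pinching from the chart of `z` to
the chart of `x`, and comparison of the two kernel heights.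
-/

open Set Filter Topology MeasureTheory Metric
open scoped RealInnerProductSpace ENNReal ContDiff

set_option linter.all false

namespace Vale.Agent.P214.BDIM

open WIN STR FM FV SCALE SUB BTWO

noncomputable section

variable {m n Q : ℕ} {E : Type*} [NormedAddCommGroup E] [InnerProductSpace ℝ E]
  [FiniteDimensional ℝ E] [MeasurableSpace E] [BorelSpace E]
variable {T T' : Submodule ℝ E} {F : Frame m n T} {F' : Frame m n T'} {ν ν' : Measure E}
  {P P' : E → E →L[ℝ] E} {c : E} {u u' ut : Fin n → REF.E m → ℝ}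
  {s ε η h b h' b' h₁ h₁' κ κ' ε' B t R : ℝ} {k k' K : ℝ → ℝ} {w w' wt : E → E} {G : Set E} {z : E}

/-- a smaller base set -/
lemma cylF_mono {G' : Set E} (hC : CylF m T w h₁ G h ν P) (hG : G' ⊆ G) (hG' : IsOpen G') :
    CylF m T w h₁ G' h ν P :=
  ⟨hC.fin, hC.meas, hC.proj, hC.dimT, hG', hC.slab.mono fun y hy h => hy (hG h), hC.lt,
    fun Z hZ hc => hC.stat Z hZ (by
      obtain ⟨K', h1, h2, h3⟩ := hc
      exact ⟨K', h1, h2.trans hG, h3⟩)⟩

/-- a larger kernel constant -/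
lemma kb_mono {B' : ℝ} (hk : ODEW.KB k k' K B) (h : B ≤ B') : ODEW.KB k k' K B' := by
  have h1 := hk.one
  refine ⟨hk.kern, h1.trans h, fun s hs => (hk.kB s hs).trans h, fun s hs => (hk.k'B s hs).trans h,
    fun s hs => (hk.KB s hs).trans h, fun s hs => (hk.Kk s hs).trans ?_, fun s hs hs1 =>
    (hk.Klow s hs hs1).trans ?_⟩
  · exact mul_le_mul_of_nonneg_right h (hk.kern.nonneg s)
  · exact mul_le_mul_of_nonneg_right h (hk.kern.K_nonneg s)

/-- the kernel is bounded below on the half ball -/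
lemma hkl_of (hk : INST.Ker k k' K B) : ∀ s, 0 ≤ s → s ≤ 9 / 16 → 1 ≤ (B + 32) * k s := by
  intro s h0 h1
  have h2 := hk.low s h0 (by linarith)
  have h3 : (7 / 16 : ℝ) ≤ 1 - s := by linarith
  have h4 : (7 / 16 : ℝ) ^ 3 ≤ (1 - s) ^ 3 := by gcongr
  norm_num at h4
  have h5 := hk.kb.one
  nlinarith

/-- the height at a smaller scale -/
lemma hN_le_mul (A : Act m n Q F ν P b ε η u h₁ κ (s / 64) s) (hs : 0 < s) :
    hN m T (F.lift u) ν (s / 8) ≤ 8 ^ (m + 2) * hN m T (F.lift u) ν s := by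
  have h1 := A.intOn (t := s) (by linarith) le_rfl
  have h2 : hE T (F.lift u) ν (s / 8) ≤ hE T (F.lift u) ν s := by
    unfold hE
    refine setIntegral_mono_set h1 (Eventually.of_forall fun y => by positivity)
      (Eventually.of_forall fun y hy => ?_)
    have h3 : T.starProjection y ∈ ball (0:E) (s / 8) := hy
    exact ball_subset_ball (by linarith) h3
  unfold hN
  have e1 : ((s / 8) ^ (m + 2))⁻¹ = 8 ^ (m + 2) * (s ^ (m + 2))⁻¹ := by
    rw [div_pow]; field_simp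
  rw [e1, mul_assoc]
  gcongr

/-- slab of the second chart, in the coordinates of the first one -/
lemma slab_second (A' : Act m n Q F' ν' P' b ε η u' h₁' κ' (s / 64) s) (hs : 0 < s) (ρ : ℝ) :
    ∀ᵐ Y ∂(fmeas T' (BTR.trw T' (F'.lift u') (-c)) h₁'
        ((ν'.map fun y => y + c).restrict (ball c ρ))),
      ‖T'.starProjection (Y - c)‖ < s / 2 →
        ‖co T' Y‖ ≤ 2 * s * hN m T' (F'.lift u') ν' s ^ (1 / 3 : ℝ) := by
  rw [BTR.fmeas_second A'.adm, (BTR.embp _).ae_map_iff, BTR.fmeas_restrict A'.adm measurableSet_ball]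
  refine ae_restrict_of_ae ?_
  have hts : h₁' ≤ s := A'.tube_le.trans (by linarith)
  filter_upwards [A'.slab hs (by linarith) le_rfl hts] with Y hY hlt
  have e1 : T'.starProjection (Y - T'.starProjection (-c) - c) = T'.starProjection Y := by
    rw [map_sub, map_sub, star_self, map_neg]; abel
  rw [e1] at hlt
  have e2 : co T' (Y - T'.starProjection (-c)) = co T' Y := by
    rw [map_sub, co_star, sub_zero]
  rw [e2]
  exact hY (by linarith)

lemma trw_neg (T' : Submodule ℝ E) (w' : E → E) (c : E) :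
    BTR.trw T' w' (-c) = fun Y => w' (Y - c) + co T' c := by
  funext Y
  unfold BTR.trw
  rw [map_neg, sub_neg_eq_add, ← sub_eq_add_neg]

/-- **the pinching**, for two charts whose references are close -/
theorem pin_part (hk : INST.Ker k k' K B) {β₀ η d Cm : ℝ} (hs : 0 < s) (hε : 0 < ε)
    (hε4 : 4096 * (n + 1) * ε ≤ 1) (hη : 0 < η) (hη1024 : η ≤ 1 / 1024) (hsη : s ≤ η)
    (hβ₀ : 0 < β₀) (hc : ‖c‖ ≤ s / 64) (hcz : ‖FV.co T c‖ ≤ η * s)
    (hTT : ‖T.starProjection - T'.starProjection‖ ≤ η)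
    (hL : BLOC.LocB m Q T ν P β₀ (1 / 64)) (hL' : BLOC.LocB m Q T' ν' P' β₀ (1 / 64))
    (hNb : Nb ν P ν' P' c (3 / 16)) (A : Act m n Q F ν P b ε η u h₁ κ (s / 64) s)
    (A' : Act m n Q F' ν' P' b ε η u' h₁' κ' (s / 64) s)
    (hCm : Cm = Q * Skel.om m + 1)
    (hS : RG.Same T (F.lift ut) T' (fun Y => F'.lift u' (Y - c) + co T' c))
    (hclose : ∀ y, ‖T.starProjection y‖ ≤ s / 4 → ‖F.lift u y - F.lift ut y‖ ≤ s * d ∧
        ‖fderiv ℝ (F.lift u) y - fderiv ℝ (F.lift ut) y‖ ≤ d)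
    (hd1 : d ≤ 1 / 640)
    (hμ1 : 2 * s * hN m T' (F'.lift u') ν' s ^ (1 / 3 : ℝ) ≤ s / 16)
    (hμ2 : 2 * (2 * s * hN m T' (F'.lift u') ν' s ^ (1 / 3 : ℝ)) + s * d ≤ h₁) (N : ℝ) :
    BCS.pinF m T (F.lift u) h₁ c k K (fP T (F.lift u) h₁ P) (fmeas T (F.lift u) h₁ ν) N (s / 32) ≤
      BPIN.cA m (B + 32) * BCS.pinF m T' (F'.lift u') h₁' 0 k K (fP T' (F'.lift u') h₁' P')
        (fmeas T' (F'.lift u') h₁' ν') N (s / 16) +
      BPIN.cA m (B + 32) * (1 + N ^ 2) * ((η ^ 2 + η ^ 2) *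
          HF m T (F.lift u) 0 k (fmeas T (F.lift u) h₁ ν) (s / 4) +
        η ^ 2 * gF m T (F.lift u) 0 K (fP T (F.lift u) h₁ P) (fmeas T (F.lift u) h₁ ν) (s / 4) +
        Cm * s ^ 2 * d ^ 2) := by
  have hn : (0:ℝ) ≤ n := Nat.cast_nonneg n
  have hom : 0 ≤ Skel.om m := ENNReal.toReal_nonneg
  have hCm0 : 0 ≤ Cm := by rw [hCm]; positivity
  have hta : s / 64 ≤ s := by linarith
  have hη1 : η ≤ 1 := by linarith
  have hnb := BTWO.nb_eq hNb
  have hkB := kb_mono hk.kb (by linarith : B ≤ B + 32)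
  have hkl := hkl_of hk
  -- the inclusions
  have hin : ∀ᵐ Y ∂(fmeas T (F.lift u) h₁ ν), T.starProjection Y ∈ ball (0:E) (2 * s) →
      Psi T (F.lift u) h₁ Y ∈ ball c (3 / 16) := by
    filter_upwards [A.psi_mem hL hβ₀.le (by norm_num) (by norm_num) hs (by linarith)
      (A.tube_le.trans hta)] with Y hY hYb
    have h1 := hY (by simpa using hYb)
    rw [mem_ball, dist_eq_norm]
    refine (norm_sub_le _ _).trans_lt ?_
    linarith
  have hin' : ∀ᵐ Y ∂(fmeas T' (F'.lift u') h₁' ν'), T'.starProjection Y ∈ ball (0:E) (2 * s) →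
      Psi T' (F'.lift u') h₁' Y ∈ ball (0:E) (3 / 16) := by
    filter_upwards [A'.psi_mem hL' hβ₀.le (by norm_num) (by norm_num) hs (by linarith)
      (A'.tube_le.trans hta)] with Y hY hYb
    have h1 := hY (by simpa using hYb)
    rw [mem_ball_zero_iff]
    linarith
  obtain ⟨hh1, -, hC⟩ := A.cyl
  obtain ⟨hh1', -, hC'⟩ := A'.cyl
  have hCB := BTR.cylF_restrict A.adm hC measurableSet_ball hin
  have hCB' := BTR.cylF_second A'.adm hNb.plane hC' hin'
  rw [← hnb] at hCB'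
  have hpin' := BTR.pinF_second (m := m) (t := s / 16) A'.adm hk.kb.kern hin' (by positivity)
    (by linarith) hNb.plane N
  rw [← hnb] at hpin'
  have hslab' := slab_second (c := c) A' hs (3 / 16)
  rw [← hnb] at hslab'
  -- the other hypotheses
  have h4 : n * ε ≤ 1 / 4096 := by nlinarith
  have hnε : 0 ≤ (n:ℝ) * ε := by positivity
  have hz : ‖F.lift u c - co T c‖ ≤ s / 512 := by
    have h1 := A.lift_le hs hta le_rfl c
    have h2 : ‖F.xc c‖ ≤ s := by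
      rw [F.norm_xc]
      exact (T.norm_starProjection_apply_le c).trans (by linarith)
    have h3 : n * ε * (s + ‖F.xc c‖) ≤ n * ε * (s + s) := by gcongr
    have h5 : n * ε * (s + s) ≤ 1 / 4096 * (s + s) := by gcongr
    have h6 : η * s ≤ 1 / 1024 * s := by gcongr
    refine (norm_sub_le _ _).trans ?_
    linarith
  have hz' : ‖BTR.trw T' (F'.lift u') (-c) c - co T' c‖ ≤ s / 512 := by
    rw [trw_neg]
    simp only [sub_self, add_sub_cancel_right]
    have h1 := A'.lift_le hs hta le_rfl (0:E)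
    have h2 : ‖F'.xc (0:E)‖ = 0 := by rw [F'.norm_xc, map_zero, norm_zero]
    rw [h2, add_zero] at h1
    have h5 : n * ε * s ≤ 1 / 4096 * s := by gcongr
    linarith
  have hσ : ∀ y, ‖T.starProjection y‖ ≤ s / 4 → ‖fderiv ℝ (F.lift u) y‖ ^ 2 ≤ η := by
    intro y hy
    have h1 := A.fderiv_small hs hta le_rfl (y := y) (by linarith)
    have h2 := norm_nonneg (fderiv ℝ (F.lift u) y)
    nlinarith
  have hσ' : ∀ y, ‖T'.starProjection (y - c)‖ ≤ s / 4 →
      ‖fderiv ℝ (BTR.trw T' (F'.lift u') (-c)) y‖ ^ 2 ≤ η := by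
    intro y hy
    rw [BTR.fderiv_trw, ← sub_eq_add_neg]
    have h1 := A'.fderiv_small hs hta le_rfl (y := y - c) (by linarith)
    have h2 := norm_nonneg (fderiv ℝ (F'.lift u') (y - c))
    nlinarith
  have hu1 : ∀ᵐ Y ∂(fmeas T (F.lift u) h₁ (ν.restrict (ball c (3 / 16)))),
      ‖T.starProjection Y‖ < s / 2 → ‖co T Y‖ ≤ s / 512 := by
    rw [BTR.fmeas_restrict A.adm measurableSet_ball]
    refine ae_restrict_of_ae ?_
    filter_upwards [A.coarse s hta le_rfl] with Y hY hlt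
    refine (hY (by linarith)).trans ?_
    nlinarith
  have hmassF : (fmeas T (F.lift u) h₁ (ν.restrict (ball c (3 / 16)))).real
      {Y | ‖T.starProjection Y‖ < s / 2} ≤ Cm * s ^ m := by
    have hfC := hC.fin
    have h1 : (fmeas T (F.lift u) h₁ (ν.restrict (ball c (3 / 16)))).real
        {Y | ‖T.starProjection Y‖ < s / 2} ≤
        (fmeas T (F.lift u) h₁ ν).real {Y | ‖T.starProjection Y‖ < 3 / 4 * s} := by
      rw [BTR.fmeas_restrict A.adm measurableSet_ball]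
      refine ENNReal.toReal_mono (measure_ne_top _ _) ?_
      refine (Measure.restrict_apply_le _ _).trans (measure_mono fun Y hY => ?_)
      have h2 : ‖T.starProjection Y‖ < s / 2 := hY
      show ‖T.starProjection Y‖ < 3 / 4 * s
      linarith
    rw [hCm]
    exact h1.trans (A.fmass_le hL hβ₀.le (by norm_num) (by norm_num) hs (by linarith)
      (A.tube_le.trans hta))
  have hS' : RG.Same T (F.lift ut) T' (BTR.trw T' (F'.lift u') (-c)) := by
    rw [trw_neg]; exact hS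
  have key := BPIN.pin_two (m := m) hkB hkl A.adm (BTR.adm_second A'.adm c) hCB
    (cylF_mono hCB' (ball_subset_ball (by linarith)) isOpen_ball) hS' hs
    (fun y hy => (hclose y hy).1) (fun y hy => (hclose y hy).2) hd1 hc
    hη.le hTT (by linarith) hz hz' A.curv A'.curv hη1 hη1 hσ hσ' hu1 hslab' hμ1 hμ2 hCm0
    hmassF N
  -- back to the original measures
  have hb1 : ODE.BallIn T (ball (0:E) (2 * s)) c (s / 32) := by
    intro x hx hxt
    have h1 : ‖T.starProjection c‖ ≤ s / 64 := (T.norm_starProjection_apply_le c).trans hc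
    rw [mem_ball_zero_iff]
    have h2 := norm_sub_norm_le x (T.starProjection c)
    linarith
  have hb2 : ODE.BallIn T (ball (0:E) (2 * s)) 0 (s / 4) := by
    intro x hx hxt
    rw [map_zero, sub_zero] at hxt
    rw [mem_ball_zero_iff]
    linarith
  have r1 := BTR.pinF_restr (m := m) (P := fP T (F.lift u) h₁ P) A.adm measurableSet_ball hin hb1
    (by positivity) hk.kb.kern N
  have r2 := BTR.HF_restr (m := m) A.adm measurableSet_ball hin hb2 (by positivity) hk.kb.kern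
  have r3 := BTR.gF_restr (m := m) (P := fP T (F.lift u) h₁ P) A.adm measurableSet_ball hin hb2
    (by positivity) hk.kb.kern
  rw [r1, r2, r3, hpin'] at key
  exact key

/-- output of `BTWO.two` -/
def TwoOut (E : Type*) [NormedAddCommGroup E] [InnerProductSpace ℝ E]
    [FiniteDimensional ℝ E] [MeasurableSpace E] [BorelSpace E] (m n Q : ℕ) (εT : ℝ) : Prop :=
  ∀ (T T' : Submodule ℝ E) (F : Frame m n T) (F' : Frame m n T')
    (ν : Measure E) (z : E) (ε s h b : ℝ) (u u' : Fin n → REF.E m → ℝ), 0 < s → 0 ≤ ε →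
    ε ≤ εT → 0 < h → h ≤ εT → 3 / 4 ≤ b → IsFiniteMeasure ν →
    ‖T.starProjection - T'.starProjection‖ ≤ ε → ‖z‖ ≤ s / 8 → ‖FV.co T z‖ ≤ ε * s →
    At m n Q F ν 0 ε s h b u → At m n Q F' ν z ε s h b u' →
    ∃ ut : Fin n → REF.E m → ℝ, (∀ a, ContDiff ℝ ∞ (ut a)) ∧
      RG.Same T (F.lift ut) T' (fun Y => F'.lift u' (Y - z) + FV.co T' z) ∧
      ∀ a, ∀ k ≤ 3, ∀ x, ‖x‖ ≤ s / 4 →
        ‖iteratedFDeriv ℝ k (fun x => ut a x - u a x) x‖
          ≤ s * s⁻¹ ^ k * h ^ ((1:ℝ) / 2 + 1 / 16)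

lemma exists_twoOut (E : Type*) [NormedAddCommGroup E] [InnerProductSpace ℝ E]
    [FiniteDimensional ℝ E] [MeasurableSpace E] [BorelSpace E] (m n Q : ℕ) (hQ : 1 ≤ Q) :
    ∃ εT : ℝ, 0 < εT ∧ TwoOut E m n Q εT := by
  obtain ⟨εT, CT, hεT, hCT, htwo⟩ := BTWO.two E m n Q hQ
  refine ⟨εT, hεT, ?_⟩
  intro T T' F F' ν z ε s h b u u' h1 h2 h3 h4 h5 h6 h7 h8 h9 h10 h11 h12
  obtain ⟨ut, hut, -, -, -, hS, -, hcl⟩ := htwo T T' F F' ν z ε s h b u u' h1 h2 h3 h4 h5 h6 h7 h8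
    h9 h10 h11 h12
  exact ⟨ut, hut, hS, hcl⟩

/-- output of `BTWO.height_comp` -/
def CompOut (E : Type*) [NormedAddCommGroup E] [InnerProductSpace ℝ E]
    [FiniteDimensional ℝ E] [MeasurableSpace E] [BorelSpace E] (m n Q : ℕ)
    (e₀ D Cm A e₁ : ℝ) : Prop :=
  ∀ (T T' : Submodule ℝ E) (F : Frame m n T)
      (F' : Frame m n T') (ν : Measure E) (c : E) (ε s h h' g g' b : ℝ)
      (u u' ut : Fin n → REF.E m → ℝ), IsFiniteMeasure ν → 0 < s → 0 ≤ ε → ε ≤ e₀ → 0 < h →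
      0 < h' → h' ≤ e₁ →
      ‖T.starProjection - T'.starProjection‖ ≤ ε → ‖c‖ ≤ s / 64 →
      At m n Q F ν 0 ε s g b u → At m n Q F' ν c ε s g' b u' →
      RG.Same T (F.lift ut) T' (fun Y => F'.lift u' (Y - c) + FV.co T' c) →
      (∀ a x, ‖x‖ ≤ s / 4 → |ut a x - u a x| ≤ s * (max h h') ^ ((1:ℝ) / 2 + 1 / 16)) →
      ν.real {y | ‖F.xc y‖ < s / 4} ≤ Cm * s ^ m →
      ∫ y in {y | ‖F.xc y‖ < s / 4}, ‖KMS.rel T (F.lift u) y‖ ^ 2 ∂ν ≤ s ^ (m + 2) * h →
      s ^ (m + 2) * h' ≤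
        D * ∫ y in {y | ‖F'.xc (y - c)‖ < s / 8}, ‖KMS.rel T' (F'.lift u') (y - c)‖ ^ 2 ∂ν →
      h' ≤ A * h

/-- **closeness and comparison of the heights** -/
theorem heights_part {εT e₀ e₁ D AH Cm β₀ η : ℝ} (htwo : TwoOut E m n Q εT)
    (hcomp : CompOut E m n Q e₀ (D * 8 ^ (m + 2)) Cm AH e₁) (hAH : 1 ≤ AH)
    (hCmd : Cm = Q * Skel.om m + 1) (hb : 3 / 4 ≤ b) (hs : 0 < s) (hs64 : s ≤ 1 / 64)
    (hε : 0 < ε) (hεT : ε ≤ εT) (hεe : ε ≤ e₀)
    (hε4 : 4096 * (n + 1) * ε ≤ 1) (hηε : η ≤ ε) (hηT : η ≤ εT) (hηe₁ : η ≤ e₁)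
    (hβ₀ : 0 < β₀) (hc : ‖c‖ ≤ s / 64) (hcz : ‖FV.co T c‖ ≤ η * s)
    (hTT : ‖T.starProjection - T'.starProjection‖ ≤ η)
    (hL : BLOC.LocB m Q T ν P β₀ (1 / 64))
    (hNb : Nb ν P ν' P' c (3 / 16)) (A : Act m n Q F ν P b ε η u h₁ κ (s / 64) s)
    (A' : Act m n Q F' ν' P' b ε η u' h₁' κ' (s / 64) s) (hD : 1 ≤ D)
    (hd' : hN m T' (F'.lift u') ν' s ≤ D * hN m T' (F'.lift u') ν' (s / 8)) :
    hN m T' (F'.lift u') ν' s ≤ AH * hN m T (F.lift u) ν s ∧
    ∃ ut : Fin n → REF.E m → ℝ, (∀ a, ContDiff ℝ ∞ (ut a)) ∧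
      RG.Same T (F.lift ut) T' (fun Y => F'.lift u' (Y - c) + FV.co T' c) ∧
      ∀ a, ∀ k ≤ 3, ∀ x, ‖x‖ ≤ s / 4 →
        ‖iteratedFDeriv ℝ k (fun x => ut a x - u a x) x‖
          ≤ s * s⁻¹ ^ k * (AH * hN m T (F.lift u) ν s) ^ ((1:ℝ) / 2 + 1 / 16) := by
  haveI hfin : IsFiniteMeasure ν := A.finite
  haveI hfin' : IsFiniteMeasure ν' := A'.finite
  have hta : s / 64 ≤ s := by linarith
  have h0 : 0 < hN m T (F.lift u) ν s := A.pos s hta le_rfl
  have h0' : 0 < hN m T' (F'.lift u') ν' s := A'.pos s hta le_rfl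
  have hle : hN m T (F.lift u) ν s ≤ η := A.le s hta le_rfl
  have hle' : hN m T' (F'.lift u') ν' s ≤ η := A'.le s hta le_rfl
  have hn : (0:ℝ) ≤ n := Nat.cast_nonneg n
  have hom : 0 ≤ Skel.om m := ENNReal.toReal_nonneg
  -- one measure
  obtain ⟨hfinB, hA1, hA2, hNB, hNB'⟩ := loc_pair hs hs64 hε.le (by nlinarith) hc hNb
    (A.at_ s hta le_rfl) (A'.at_ s hta le_rfl)
  have hM0 : 0 < max (hN m T (F.lift u) ν s) (hN m T' (F'.lift u') ν' s) :=
    lt_max_of_lt_left h0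
  have hMη : max (hN m T (F.lift u) ν s) (hN m T' (F'.lift u') ν' s) ≤ η := max_le hle hle'
  have hb0 : 0 ≤ b := by linarith
  have hA1' := hA1.mono hs h0 (le_max_left _ (hN m T' (F'.lift u') ν' s)) hb0 le_rfl
  have hA2' := hA2.mono hs h0' (le_max_right (hN m T (F.lift u) ν s) _) hb0 le_rfl
  obtain ⟨ut, hut, hS, hcl⟩ := htwo T T' F F' (ν.restrict (ball c (3 / 16))) c ε s _ b u u' hs
    hε.le hεT hM0 (hMη.trans hηT) hb hfinB (hTT.trans hηε) (hc.trans (by linarith))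
    (hcz.trans (by gcongr)) hA1' hA2'
  -- heights
  have hint : IntegrableOn (fun y => ‖KMS.rel T (F.lift u) y‖ ^ 2) {y | ‖F.xc y‖ < s}
      (ν.restrict (ball c (3 / 16))) := by
    have h1 := relsq_int F (ν := ν.restrict (ball c (3 / 16))) (z := 0) (s := s) (c := ε * s)
      (fun a => (hA1.smooth a).continuous) hA1.slab
    simpa only [sub_zero] using h1
  have hEs : ∫ y in {y | ‖F.xc y‖ < s / 4}, ‖KMS.rel T (F.lift u) y‖ ^ 2
      ∂(ν.restrict (ball c (3 / 16))) ≤ s ^ (m + 2) * hN m T (F.lift u) ν s := by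
    have h1 : ∫ y in {y | ‖F.xc y‖ < s / 4}, ‖KMS.rel T (F.lift u) y‖ ^ 2
          ∂(ν.restrict (ball c (3 / 16)))
        ≤ ∫ y in {y | ‖F.xc y‖ < s}, ‖KMS.rel T (F.lift u) y‖ ^ 2
          ∂(ν.restrict (ball c (3 / 16))) :=
      setIntegral_mono_set hint (Eventually.of_forall fun y => by positivity)
        (Eventually.of_forall fun y (hy : ‖F.xc y‖ < s / 4) =>
          (by linarith : ‖F.xc y‖ < s))
    refine h1.trans (le_of_eq ?_)
    have h2 := hNB s le_rfl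
    rw [hN_eq F] at h2
    simp only [sub_zero] at h2
    rw [← h2, ← mul_assoc, mul_inv_cancel₀ (by positivity), one_mul]
  have hEs' : s ^ (m + 2) * hN m T' (F'.lift u') ν' s ≤
      D * 8 ^ (m + 2) * ∫ y in {y | ‖F'.xc (y - c)‖ < s / 8},
        ‖KMS.rel T' (F'.lift u') (y - c)‖ ^ 2 ∂(ν.restrict (ball c (3 / 16))) := by
    have h2 := hNB' (s / 8) (by linarith)
    have h3 : s ^ (m + 2) * hN m T' (F'.lift u') ν' s ≤
        s ^ (m + 2) * (D * hN m T' (F'.lift u') ν' (s / 8)) := by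
      gcongr
    refine h3.trans (le_of_eq ?_)
    rw [← h2, div_pow]
    generalize (∫ y in {y | ‖F'.xc (y - c)‖ < s / 8},
      ‖KMS.rel T' (F'.lift u') (y - c)‖ ^ 2 ∂(ν.restrict (ball c (3 / 16)))) = I
    field_simp
  have hmassB : (ν.restrict (ball c (3 / 16))).real {y | ‖F.xc y‖ < s / 4} ≤ Cm * s ^ m := by
    have h1 : (ν.restrict (ball c (3 / 16))).real {y | ‖F.xc y‖ < s / 4} ≤
        ν.real {y | ‖F.xc y‖ < s / 4} := by
      refine ENNReal.toReal_mono (measure_ne_top _ _) ?_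
      exact Measure.restrict_apply_le _ _
    refine h1.trans ((locB_mass_xc F hL hβ₀.le (by norm_num) (by positivity)
      (by linarith : s / 4 ≤ 3 / 8)).trans ?_)
    have h2 : (s / 4) ^ m ≤ s ^ m := by gcongr; linarith
    have h3 : Q * Skel.om m + 1 / 64 ≤ Cm := by rw [hCmd]; norm_num
    have h4 : 0 ≤ (s / 4) ^ m := by positivity
    have h5 : 0 ≤ Cm := le_trans (by positivity) h3
    exact mul_le_mul h3 h2 h4 h5
  have hh'h : hN m T' (F'.lift u') ν' s ≤ AH * hN m T (F.lift u) ν s := by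
    refine hcomp T T' F F' (ν.restrict (ball c (3 / 16))) c ε s _ _ _ _ b u u' ut hfinB hs hε.le
      hεe h0 h0' (hle'.trans hηe₁) (hTT.trans hηε) hc hA1' hA2' hS (fun a x hx => ?_) hmassB hEs
      hEs'
    have h1 := hcl a 0 (by norm_num) x hx
    rwa [norm_iteratedFDeriv_zero, pow_zero, mul_one] at h1
  have hMh : max (hN m T (F.lift u) ν s) (hN m T' (F'.lift u') ν' s) ≤
      AH * hN m T (F.lift u) ν s := max_le (by nlinarith) hh'h
  refine ⟨hh'h, ut, hut, hS, fun a k hk x hx => (hcl a k hk x hx).trans ?_⟩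
  gcongr

/-- the last bookkeeping -/
lemma fin_num {cA A Cm DC η η' N s h d X G p q : ℝ} (hcA : 1 ≤ cA) (hA : cA ≤ A)
    (hDC : 0 < DC) (hη : 0 < η) (hη1 : η ≤ 1) (hη' : 0 < η')
    (h6 : 6 * cA * η ≤ η') (hX : 0 ≤ X) (hG : 0 ≤ G) (hp : 0 ≤ p)
    (hd : cA * Cm * DC * 3 / η' * d ^ 2 ≤ 1 / 640 * h) (hh : 0 ≤ h) (hsh : s ^ 2 * h ≤ DC * X)
    (key : q ≤ cA * p + cA * (1 + N ^ 2) * ((η ^ 2 + η ^ 2) * X + η ^ 2 * G + Cm * s ^ 2 * d ^ 2)) :
    q ≤ A * p + η' * (1 + N ^ 2) * (X + G) := by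
  have hN : 0 ≤ 1 + N ^ 2 := by positivity
  have hη2 : η ^ 2 ≤ η := by nlinarith
  have hcA0 : 0 < cA := by linarith
  have e1 : cA * (η ^ 2 + η ^ 2) ≤ η' / 3 := by nlinarith
  have e2 : cA * η ^ 2 ≤ η' := by nlinarith
  have e3 : cA * (Cm * s ^ 2 * d ^ 2) ≤ η' / 3 * X := by
    have h1 : cA * (Cm * s ^ 2 * d ^ 2)
        = η' / (3 * DC) * (s ^ 2 * (cA * Cm * DC * 3 / η' * d ^ 2)) := by
      field_simp
    rw [h1]
    have h2 : s ^ 2 * (cA * Cm * DC * 3 / η' * d ^ 2) ≤ s ^ 2 * h := by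
      refine mul_le_mul_of_nonneg_left (hd.trans ?_) (by positivity)
      linarith
    calc η' / (3 * DC) * (s ^ 2 * (cA * Cm * DC * 3 / η' * d ^ 2))
        ≤ η' / (3 * DC) * (DC * X) := by
          refine mul_le_mul_of_nonneg_left (h2.trans hsh) (by positivity)
      _ = η' / 3 * X := by field_simp
  have e4 : cA * ((η ^ 2 + η ^ 2) * X + η ^ 2 * G + Cm * s ^ 2 * d ^ 2) ≤ η' * (X + G) := by
    have h1 : cA * (η ^ 2 + η ^ 2) * X ≤ η' / 3 * X := mul_le_mul_of_nonneg_right e1 hX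
    have h2 : cA * η ^ 2 * G ≤ η' * G := mul_le_mul_of_nonneg_right e2 hG
    have h3 : 0 ≤ η' / 3 * X := by positivity
    calc _ = cA * (η ^ 2 + η ^ 2) * X + cA * η ^ 2 * G + cA * (Cm * s ^ 2 * d ^ 2) := by ring
      _ ≤ η' / 3 * X + η' * G + η' / 3 * X := add_le_add (add_le_add h1 h2) e3
      _ ≤ η' * (X + G) := by linarith
  have e5 : cA * p ≤ A * p := mul_le_mul_of_nonneg_right hA hp
  have e6 := mul_le_mul_of_nonneg_left e4 hN
  calc q ≤ _ := key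
    _ = cA * p + (1 + N ^ 2) * (cA * ((η ^ 2 + η ^ 2) * X + η ^ 2 * G + Cm * s ^ 2 * d ^ 2)) := by
        ring
    _ ≤ A * p + (1 + N ^ 2) * (η' * (X + G)) := add_le_add e5 e6
    _ = _ := by ring

/-- **[B4], the assembly** -/
theorem two_stmt (E : Type*) [NormedAddCommGroup E] [InnerProductSpace ℝ E]
    [FiniteDimensional ℝ E] [MeasurableSpace E] [BorelSpace E] {m n Q : ℕ} {k k' K : ℝ → ℝ}
    {B b : ℝ} (hk : INST.Ker k k' K B) (hQ : 1 ≤ Q) (hb : 3 / 4 ≤ b) :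
    TwoStmt E m n Q k K b := by
  obtain ⟨εT, hεT, htwo⟩ := exists_twoOut E m n Q hQ
  obtain ⟨e₀, he₀, hcomp⟩ := BTWO.height_comp (E := E) n
  obtain ⟨CU, hCU, hupp⟩ := hw_upper m hk
  obtain ⟨CL, hCL, hlow⟩ := hw_lower m hk
  have hcA : 1 ≤ BPIN.cA m (B + 32) := BPIN.cA_ge m (by linarith [hk.kb.one])
  have hn : (0:ℝ) ≤ n := Nat.cast_nonneg n
  have hom : 0 ≤ Skel.om m := ENNReal.toReal_nonneg
  obtain ⟨Cm, hCmd⟩ : ∃ Cm : ℝ, Cm = Q * Skel.om m + 1 := ⟨_, rfl⟩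
  have hCm : 0 < Cm := by rw [hCmd]; positivity
  refine ⟨min (min εT e₀) (1 / (4096 * (n + 1))), by positivity, fun ε hε hεe D hD => ?_⟩
  have hεT' : ε ≤ εT := hεe.trans ((min_le_left _ _).trans (min_le_left _ _))
  have hεe' : ε ≤ e₀ := hεe.trans ((min_le_left _ _).trans (min_le_right _ _))
  have hε4 : 4096 * (n + 1) * ε ≤ 1 := by
    have h1 := hεe.trans (min_le_right _ _)
    rw [le_div_iff₀ (by positivity)] at h1
    linarith
  have h8 : (1:ℝ) ≤ 8 ^ (m + 2) := one_le_pow₀ (by norm_num)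
  have hD8 : 1 ≤ D * 8 ^ (m + 2) := by nlinarith
  obtain ⟨AH, e₁, hAH, he₁, hcomp⟩ := hcomp (D * 8 ^ (m + 2)) Cm hD8 hCm.le
  have hcomp' : CompOut E m n Q e₀ (D * 8 ^ (m + 2)) Cm AH e₁ := fun T T' F F' ν c ε s h h' g g' b
    u u' ut => hcomp m Q T T' F F' ν c ε s h h' g g' b u u' ut
  clear hcomp
  refine ⟨max (BPIN.cA m (B + 32)) (CU * 8 ^ (m + 2) * AH * D * CL), hcA.trans (le_max_left _ _),
    fun η' hη' => ?_⟩
  obtain ⟨η₁, hη₁, hη₁', hnum⟩ := exists_nums AH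
    (BPIN.cA m (B + 32) * Cm * (D * CL) * 3 / η') 4 n hAH hn (δ := 1 / 640) (by norm_num)
  refine ⟨min (min η₁ ε) (min (min εT e₁) (min (1 / 1024) (η' / (6 * BPIN.cA m (B + 32))))),
    by positivity, fun η hη hηe => ?_⟩
  have hηη₁ : η ≤ η₁ := hηe.trans ((min_le_left _ _).trans (min_le_left _ _))
  have hηε : η ≤ ε := hηe.trans ((min_le_left _ _).trans (min_le_right _ _))
  have hη2 := hηe.trans (min_le_right _ _)
  have hηT : η ≤ εT := hη2.trans ((min_le_left _ _).trans (min_le_left _ _))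
  have hηe₁ : η ≤ e₁ := hη2.trans ((min_le_left _ _).trans (min_le_right _ _))
  have hη3 := hη2.trans (min_le_right _ _)
  have hη1024 : η ≤ 1 / 1024 := hη3.trans (min_le_left _ _)
  have hηη' : 6 * BPIN.cA m (B + 32) * η ≤ η' := by
    have h1 := hη3.trans (min_le_right _ _)
    rw [le_div_iff₀ (by positivity)] at h1
    linarith
  intro T T' F F' ν ν' P P' c u u' h₁ h₁' κ κ' s β₀ hs hsη hβ₀ hc hcz hTT hL hL' hNb A A' hd hd'
  have hη1 : η ≤ 1 := by linarith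
  have hta : s / 64 ≤ s := by linarith
  have h0 : 0 < hN m T (F.lift u) ν s := A.pos s hta le_rfl
  have h0' : 0 < hN m T' (F'.lift u') ν' s := A'.pos s hta le_rfl
  obtain ⟨hh'h, ut, hut, hS, hcl⟩ := heights_part htwo hcomp' hAH hCmd hb hs (by linarith) hε
    hεT' hεe' hε4 hηε hηT hηe₁ hβ₀ hc hcz hTT hL hNb A A' hD hd'
  have hlow1 := hlow hs hη1 A
  have hHw0 : 0 ≤ INST.Hw m T ν k h₁ (F.lift u) (s / 4) := by
    have h1 : 0 ≤ hN m T (F.lift u) ν (s / 8) := hN_nonneg' (by positivity)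
    have h2 : 0 ≤ CL * INST.Hw m T ν k h₁ (F.lift u) (s / 4) :=
      le_trans (by positivity) hlow1
    exact nonneg_of_mul_nonneg_right h2 (by linarith)
  have hsh : s ^ 2 * hN m T (F.lift u) ν s ≤ D * CL * INST.Hw m T ν k h₁ (F.lift u) (s / 4) := by
    calc s ^ 2 * hN m T (F.lift u) ν s ≤ s ^ 2 * (D * hN m T (F.lift u) ν (s / 8)) := by gcongr
      _ = D * (s ^ 2 * hN m T (F.lift u) ν (s / 8)) := by ring
      _ ≤ D * (CL * INST.Hw m T ν k h₁ (F.lift u) (s / 4)) := by gcongr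
      _ = _ := by ring
  have hupp1 := hupp hs hη1 A'
  have hNle := hN_le_mul A' hs
  constructor
  · -- comparison of the kernel heights
    calc INST.Hw m T' ν' k h₁' (F'.lift u') (s / 16)
        ≤ CU * s ^ 2 * hN m T' (F'.lift u') ν' (s / 8) := hupp1
      _ ≤ CU * s ^ 2 * (8 ^ (m + 2) * (AH * hN m T (F.lift u) ν s)) := by
          gcongr
          exact hNle.trans (by gcongr)
      _ = CU * 8 ^ (m + 2) * AH * (s ^ 2 * hN m T (F.lift u) ν s) := by ring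
      _ ≤ CU * 8 ^ (m + 2) * AH * (D * CL * INST.Hw m T ν k h₁ (F.lift u) (s / 4)) := by
          gcongr
      _ = CU * 8 ^ (m + 2) * AH * D * CL * INST.Hw m T ν k h₁ (F.lift u) (s / 4) := by ring
      _ ≤ _ := by gcongr; exact le_max_right _ _
  · intro N
    obtain ⟨hn1, hn2, hn3, hn4⟩ := hnum _ h0 ((A.le s hta le_rfl).trans hηη₁)
    have hAh0 : 0 < AH * hN m T (F.lift u) ν s := by positivity
    have hclose : ∀ y, ‖T.starProjection y‖ ≤ s / 4 → ‖F.lift u y - F.lift ut y‖ ≤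
          s * (n * (AH * hN m T (F.lift u) ν s) ^ ((1:ℝ) / 2 + 1 / 16)) ∧
        ‖fderiv ℝ (F.lift u) y - fderiv ℝ (F.lift ut) y‖ ≤
          n * (AH * hN m T (F.lift u) ν s) ^ ((1:ℝ) / 2 + 1 / 16) := by
      intro y hy
      exact lift_close F (A.at_ s hta le_rfl).smooth hut hs hcl hy
    have hμle : hN m T' (F'.lift u') ν' s ^ (1 / 3 : ℝ) ≤
        (AH * hN m T (F.lift u) ν s) ^ ((1:ℝ) / 3) :=
      Real.rpow_le_rpow h0'.le hh'h (by norm_num)
    have hμ1 : 2 * s * hN m T' (F'.lift u') ν' s ^ (1 / 3 : ℝ) ≤ s / 16 := by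
      have h1 : hN m T' (F'.lift u') ν' s ^ (1 / 3 : ℝ) ≤ 1 / 640 := by
        have := Real.rpow_nonneg hAh0.le (1 / 3)
        linarith
      nlinarith
    have hμ2 : 2 * (2 * s * hN m T' (F'.lift u') ν' s ^ (1 / 3 : ℝ)) +
        s * (n * (AH * hN m T (F.lift u) ν s) ^ ((1:ℝ) / 2 + 1 / 16)) ≤ h₁ := by
      have h1 := A.tube s hta le_rfl
      calc _ = s * (4 * hN m T' (F'.lift u') ν' s ^ (1 / 3 : ℝ) +
            n * (AH * hN m T (F.lift u) ν s) ^ ((1:ℝ) / 2 + 1 / 16)) := by ring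
        _ ≤ s * hN m T (F.lift u) ν s ^ ((1:ℝ) / 4) :=
            mul_le_mul_of_nonneg_left (le_trans (by linarith) hn3) hs.le
        _ ≤ h₁ := h1
    have key := pin_part hk hs hε hε4 hη hη1024 hsη hβ₀ hc hcz hTT hL hL' hNb A A' hCmd hS hclose
      hn1 hμ1 hμ2 N
    obtain ⟨hh1, -, hC⟩ := A.cyl
    obtain ⟨hh1', -, hC'⟩ := A'.cyl
    have hG0 : 0 ≤ gF m T (F.lift u) 0 K (fP T (F.lift u) h₁ P) (fmeas T (F.lift u) h₁ ν)
        (s / 4) := hC.gF_nonneg A.adm hk.kb.kern (by positivity)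
    have hP0 : 0 ≤ BCS.pinF m T' (F'.lift u') h₁' 0 k K (fP T' (F'.lift u') h₁' P')
        (fmeas T' (F'.lift u') h₁' ν') N (s / 16) := by
      refine BCS.pinF_nonneg A'.adm hC' hk.kb.kern (by positivity) (fun x hx hxt => ?_) N
      rw [map_zero, sub_zero] at hxt
      rw [mem_ball_zero_iff]
      linarith
    exact fin_num hcA (le_max_left _ _) (by positivity : 0 < D * CL) hη hη1 hη' hηη' hHw0 hG0 hP0
      hn2 h0.le hsh key

end

end Vale.Agent.P214.BDIM
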