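import Vale.Agent.P214.BDIM.FlatMain
import Vale.Agent.P214.BDIM.Two
import Vale.Agent.P214.BDIM.MainOf

/-!
# P214, target B: `FlatStmt` unconditional; the final theorem from `PtStmt`
-/

open Set Filter Topology MeasureTheory Metric
open scoped RealInnerProductSpace ENNReal ContDiff

namespace Vale.Agent.P214.BDIM

variable {m n : ℕ} {E : Type*} [NormedAddCommGroup E] [InnerProductSpace ℝ E]
  [FiniteDimensional ℝ E] [MeasurableSpace E] [BorelSpace E]

/-- **[B5-FLAT]**, unconditional -/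
theorem flatStmt {k k' K : ℝ → ℝ} {B b : ℝ} (hk : INST.Ker k k' K B) (hm : 1 ≤ m)
    (hb : 3 / 4 ≤ b) : FlatStmt E m n k K b :=
  flat_stmt hk hm fun _ hQ => two_stmt E hk hQ hb

/-- the dimension bound, from the statement for one point (kernels `k3`, `K3`, exponent `3/4`) -/
theorem dimH_sing_le_of_pt (hm : 1 ≤ m) (hPt : PtStmt E m n ODEW.k3 ODEW.K3 (3 / 4)) {U : Set E}
    (hU : IsOpen U) (V : IntegralVarifold m U) (hV : V.IsStationary) :
    dimH V.sing ≤ ((m - 1 : ℕ) : ℝ≥0∞) :=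
  dimH_sing_le_of hm hPt (fun Q _ => oneStmt E n Q INST.ker3 hm _)
    (fun _ hQ => two_stmt E INST.ker3 hQ le_rfl) hU V hV

end Vale.Agent.P214.BDIM
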