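import Vale.Agent.P214.BDIM.One
import Vale.Agent.P214.BDIM.Flat

/-!
# P214, target B, block [B5-FLAT]: `FlatStmt` from `TwoStmt`
-/

open Set Filter Topology MeasureTheory Metric
open scoped RealInnerProductSpace ENNReal ContDiff

namespace Vale.Agent.P214.BDIM

variable {m n : ℕ} {E : Type*} [NormedAddCommGroup E] [InnerProductSpace ℝ E]
  [FiniteDimensional ℝ E] [MeasurableSpace E] [BorelSpace E]

/-- **[B5-FLAT]** -/
theorem flat_stmt {k k' K : ℝ → ℝ} {B b : ℝ} (hk : INST.Ker k k' K B) (hm : 1 ≤ m)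
    (hTwo : ∀ Q : ℕ, 1 ≤ Q → TwoStmt E m n Q k K b) : FlatStmt E m n k K b :=
  flatStmt_of hk (fun Q _ => oneStmt E n Q hk hm b) hTwo

end Vale.Agent.P214.BDIM
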