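import Vale.Agent.P214.BDIM.OneProp
import Vale.Agent.P214.BCS.Two

/-!
# P214, target B, block [B5-ONE] (helper633): the `x`-side of `FlatStmt`

`one`: from one ready reference at the centre `0` on `[S, β S]`: with `t = 16 S` there are a height
`X₀` which bounds `Hw + gw` on `[t, b t]`, and a subspace `L ≤ T` of dimension `≤ m - 1` such that
all centres `z'` pinched in the same chart at a scale of `[t, b t]` are near `L`.
-/

open Set Filter Topology MeasureTheory Metric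
open scoped RealInnerProductSpace ENNReal ContDiff

set_option linter.all false

namespace Vale.Agent.P214.BDIM

open WIN STR FM DIM SCALE SUB ODE FV ODEW BCS

section fm

variable {E : Type*} [NormedAddCommGroup E] [InnerProductSpace ℝ E] [FiniteDimensional ℝ E]
  [MeasurableSpace E] [BorelSpace E]
variable {m : ℕ} {T : Submodule ℝ E} {w : E → E} {ε κ h₁ : ℝ} {G : Set E} {h : ℝ}
  {ν : Measure E} {P : E → E →L[ℝ] E} {z : E} {k k' K : ℝ → ℝ} {B x y : ℝ}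

/-- the kernel tilt at a scale at most half as large -/
lemma gF_le_gF (H : Adm T w ε κ h₁) (hC : CylF m T w h₁ G h ν P) (hk : KB k k' K B)
    (hx : 0 < x) (hxy : 2 * x ≤ y) (hG : BallIn T G z y) :
    gF m T w z K P ν x ≤ (y / x) ^ m * B ^ 2 * gF m T w z K P ν y := by
  haveI := hC.fin
  have hB1 := hk.one
  have hB0 : 0 ≤ B := by linarith
  have hy : 0 < y := by linarith
  have hGx : BallIn T G z x := fun v hv hv2 => hG v hv (by linarith)
  have hKc := hk.kern.pK.continuous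
  have i1 : Integrable (fun Y => K (aX T w z Y / x ^ 2) * eP T w P Y) ν :=
    hC.intg H (hC.gd_eP H hx.le hGx) hKc hk.kern.pK.zero hx le_rfl
  have i2 : Integrable (fun Y => K (aX T w z Y / y ^ 2) * eP T w P Y) ν :=
    hC.intg H (hC.gd_eP H hy.le hG) hKc hk.kern.pK.zero hy le_rfl
  have key : ∀ᵐ Y ∂ν, K (aX T w z Y / x ^ 2) * eP T w P Y ≤
      B ^ 2 * (K (aX T w z Y / y ^ 2) * eP T w P Y) := by
    filter_upwards [hC.eP_nonneg] with Y hY
    rw [← mul_assoc]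
    refine mul_le_mul_of_nonneg_right ?_ hY
    by_cases hlt : aX T w z Y < x ^ 2
    · have h3 : aX T w z Y / y ^ 2 < 1 / 4 := by
        rw [div_lt_iff₀ (by positivity)]
        nlinarith
      have h4 := hk.Klow _ (div_nonneg (aX_nonneg Y) (by positivity)) h3
      have h5 := hk.KB (aX T w z Y / x ^ 2) (div_nonneg (aX_nonneg Y) (by positivity))
      calc K (aX T w z Y / x ^ 2) ≤ B * 1 := by rw [mul_one]; exact h5
        _ ≤ B * (B * K (aX T w z Y / y ^ 2)) := by gcongr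
        _ = _ := by ring
    · have h1 : K (aX T w z Y / x ^ 2) = 0 := hk.kern.pK.zero _ (by
        rw [le_div_iff₀ (by positivity), one_mul]; exact not_lt.1 hlt)
      rw [h1]
      have := hk.kern.K_nonneg (aX T w z Y / y ^ 2)
      positivity
  have h1 := integral_mono_ae i1 (i2.const_mul (B ^ 2)) key
  rw [integral_const_mul] at h1
  unfold gF kI
  have z2 : x ^ (2 - (m : ℤ)) ≤ (y / x) ^ m * y ^ (2 - (m : ℤ)) := by
    have e1 : x ^ (2 - (m : ℤ)) = x ^ 2 * (x ^ m)⁻¹ := by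
      rw [zpow_sub₀ hx.ne']; norm_cast
    have e2 : y ^ (2 - (m : ℤ)) = y ^ 2 * (y ^ m)⁻¹ := by
      rw [zpow_sub₀ hy.ne']; norm_cast
    rw [e1, e2, div_pow]
    have e3 : y ^ m / x ^ m * (y ^ 2 * (y ^ m)⁻¹) = y ^ 2 * (x ^ m)⁻¹ := by
      field_simp
    rw [e3]
    gcongr
    linarith
  have h0 : 0 ≤ ∫ Y, K (aX T w z Y / y ^ 2) * eP T w P Y ∂ν := by
    refine integral_nonneg_of_ae ?_
    filter_upwards [hC.eP_nonneg] with Y hY
    have := hk.kern.K_nonneg (aX T w z Y / y ^ 2)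
    show 0 ≤ K (aX T w z Y / y ^ 2) * eP T w P Y
    positivity
  have hx0 : 0 ≤ x ^ (2 - (m : ℤ)) := by positivity
  have hy0 : 0 ≤ y ^ (2 - (m : ℤ)) := by positivity
  calc x ^ (2 - (m : ℤ)) * ∫ Y, K (aX T w z Y / x ^ 2) * eP T w P Y ∂ν ≤
      x ^ (2 - (m : ℤ)) * (B ^ 2 * ∫ Y, K (aX T w z Y / y ^ 2) * eP T w P Y ∂ν) := by gcongr
    _ ≤ ((y / x) ^ m * y ^ (2 - (m : ℤ))) *
          (B ^ 2 * ∫ Y, K (aX T w z Y / y ^ 2) * eP T w P Y ∂ν) := by gcongr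
    _ = _ := by ring

/-- heights at a smaller scale -/
lemma HF_le_HF (H : Adm T w ε κ h₁) (hC : CylF m T w h₁ G h ν P) (hk : KB k k' K B)
    (ha : AntitoneOn k (Ici 0)) (hx : 0 < x) (hxy : x ≤ y) (hG : BallIn T G z y) :
    HF m T w z k ν x ≤ (y / x) ^ m * HF m T w z k ν y := by
  have h1 := hC.mono_HF (z := z) H hk.kern ha hx hxy hG
  rw [div_pow, div_mul_eq_mul_div, le_div_iff₀ (by positivity)]
  linarith

/-- the tilt is bounded by the height at a scale with bounded frequency -/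
lemma gF_le_HF {σ N : ℝ} (H : Adm T w ε κ h₁) (hC : CylF m T w h₁ G h ν P)
    (hmin : MinimalOver T w G) (hh : h ≤ 1) (hκt : κ * x ≤ eps0) (hs : Slp T w z κ x)
    (hG : BallIn T G z y) (hxy : x < y) (hk : KB k k' K B) (hx : 0 < x) (hσ : 0 ≤ σ)
    (hu : ∀ᵐ Y ∂ν, aX T w z Y < x ^ 2 → ‖co T Y‖ ≤ σ * x)
    (h1 : 2 * B * cB m (Module.finrank ℝ E) * (κ * x) ^ 2 ≤ 1)
    (h2 : cB m (Module.finrank ℝ E) * σ * (κ * x) ≤ 1 / 2)
    (hj : jF m T w h₁ z K P ν x ≤ N * HF m T w z k ν x) :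
    gF m T w z K P ν x ≤ 2 * (N + 1) * HF m T w z k ν x := by
  have hH0 := hC.HF_nonneg (z := z) H hk.kern hx
  have hg0 := hC.gF_nonneg (z := z) H hk.kern hx
  have hjg := CylF.abs_jF_sub_gF_le H hC hmin hh hκt hs hG hk hx hxy hσ hu
  have h3 := (abs_le.1 hjg).1
  have h4 : 2 * B * cB m (Module.finrank ℝ E) * (κ * x) ^ 2 * HF m T w z k ν x ≤
      1 * HF m T w z k ν x := by gcongr
  have h5 : cB m (Module.finrank ℝ E) * σ * (κ * x) * gF m T w z K P ν x ≤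
      1 / 2 * gF m T w z K P ν x := by gcongr
  nlinarith

end fm

section ready

variable {m n Q : ℕ} {E : Type*} [NormedAddCommGroup E] [InnerProductSpace ℝ E]
  [FiniteDimensional ℝ E] [MeasurableSpace E] [BorelSpace E]
variable {T : Submodule ℝ E} {F : Frame m n T} {ν : Measure E} {P : E → E →L[ℝ] E}
  {k k' K : ℝ → ℝ} {bb ε η M Λ B h₁ κ S β : ℝ} {u : Fin n → REF.E m → ℝ}

lemma bx_zero' (T : Submodule ℝ E) (Y : E) : bx T 0 Y = T.starProjection Y := by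
  rw [bx_eq, map_zero, sub_zero]

lemma Act.ballIn {ta tb : ℝ} (hA : Act m n Q F ν P bb ε η u h₁ κ ta tb) {y : ℝ} (hy : y < 2 * tb) :
    BallIn T (ball (0:E) (2 * tb)) 0 y := by
  intro x _ hx
  rw [map_zero, sub_zero] at hx
  rw [mem_ball_zero_iff]
  exact hx.trans_lt hy

lemma Act.slab' {ta tb : ℝ} (hA : Act m n Q F ν P bb ε η u h₁ κ ta tb) {s : ℝ} (h1 : ta ≤ s)
    (h2 : s ≤ tb) (hs : 0 < s) : ∀ᵐ Y ∂(fmeas T (F.lift u) h₁ ν), aX T (F.lift u) 0 Y < s ^ 2 →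
      ‖co T Y‖ ≤ η * s := by
  filter_upwards [hA.coarse s h1 h2] with Y hY h3
  refine hY ?_
  have h4 : ‖bx T 0 Y‖ < s := by
    unfold aX XX at h3
    exact lt_of_pow_lt_pow_left₀ 2 hs.le h3
  rw [bx_zero'] at h4
  linarith

/-- iterated doubling -/
lemma RdyAt.dbl_pow {ta tb : ℝ} (hR : RdyAt k K m n Q F ν P bb ε η M Λ u h₁ κ ta tb) (hΛ : 0 ≤ Λ)
    {r : ℝ} (hr : ta ≤ r) (hr0 : 0 < r) (j : ℕ) (hj : 2 ^ j * r ≤ tb) :
    INST.Hw m T ν k h₁ (F.lift u) (2 ^ j * r) ≤ Λ ^ j * INST.Hw m T ν k h₁ (F.lift u) r := by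
  induction j with
  | zero => simp
  | succ j ih =>
    have e : (2 : ℝ) ^ (j + 1) * r = 2 * (2 ^ j * r) := by ring
    rw [e] at hj ⊢
    have h1 : r ≤ 2 ^ j * r := by
      have : (1 : ℝ) ≤ 2 ^ j := one_le_pow₀ (by norm_num)
      nlinarith
    have h2 : 0 < 2 ^ j * r := by positivity
    calc _ ≤ Λ * INST.Hw m T ν k h₁ (F.lift u) (2 ^ j * r) := hR.dblH _ (hr.trans h1) hj
      _ ≤ Λ * (Λ ^ j * INST.Hw m T ν k h₁ (F.lift u) r) := by
          gcongr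
          exact ih (by linarith)
      _ = _ := by ring

/-- doubling over all scales between `r` and `2 ^ J r` -/
lemma RdyAt.dbl {ta tb : ℝ} (hk : INST.Ker k k' K B)
    (hR : RdyAt k K m n Q F ν P bb ε η M Λ u h₁ κ ta tb) (hΛ : 1 ≤ Λ)
    {r x : ℝ} (hr : ta ≤ r) (hr0 : 0 < r) {J : ℕ} (hJ : 2 ^ J * r ≤ tb) (hrx : r ≤ x)
    (hx : x ≤ 2 ^ J * r) :
    INST.Hw m T ν k h₁ (F.lift u) x ≤
      (2 ^ J) ^ m * Λ ^ J * INST.Hw m T ν k h₁ (F.lift u) r := by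
  obtain ⟨h, hh, hC⟩ := hR.act.cyl
  have hx0 : 0 < x := hr0.trans_le hrx
  have h1 := HF_le_HF (z := 0) hR.act.adm hC hk.kb hk.anti hx0 hx
    (hR.act.ballIn (by
      have : 0 < 2 ^ J * r := by positivity
      linarith))
  have h2 := hR.dbl_pow (by linarith) hr hr0 J hJ
  have h3 : 2 ^ J * r / x ≤ 2 ^ J := by
    rw [div_le_iff₀ hx0]
    have : (0 : ℝ) < 2 ^ J := by positivity
    nlinarith
  have h4 : 0 ≤ HF m T (F.lift u) 0 k (fmeas T (F.lift u) h₁ ν) (2 ^ J * r) :=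
    hC.HF_nonneg hR.act.adm hk.kb.kern (by positivity)
  calc HF m T (F.lift u) 0 k (fmeas T (F.lift u) h₁ ν) x ≤
      (2 ^ J * r / x) ^ m * HF m T (F.lift u) 0 k (fmeas T (F.lift u) h₁ ν) (2 ^ J * r) := h1
    _ ≤ (2 ^ J) ^ m * HF m T (F.lift u) 0 k (fmeas T (F.lift u) h₁ ν) (2 ^ J * r) := by
        gcongr
    _ ≤ (2 ^ J) ^ m * (Λ ^ J * INST.Hw m T ν k h₁ (F.lift u) r) := by
        gcongr
        exact h2
    _ = _ := by ring

/-- the constants -/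
noncomputable def cD (m J : ℕ) (Λ : ℝ) : ℝ := (2 ^ J) ^ m * Λ ^ J

lemma one_le_cD (m J : ℕ) {Λ : ℝ} (hΛ : 1 ≤ Λ) : 1 ≤ cD m J Λ := by
  unfold cD
  have h1 : (1 : ℝ) ≤ (2 ^ J) ^ m := one_le_pow₀ (one_le_pow₀ (by norm_num))
  have h2 : (1 : ℝ) ≤ Λ ^ J := one_le_pow₀ hΛ
  nlinarith

/-- smallness of `η` in terms of the constants -/
structure SmE (m N : ℕ) (B D Λ δ η : ℝ) : Prop where
  pos : 0 < η
  e0 : η ≤ eps0
  e1 : η ≤ 1 / 2
  e2 : η ≤ δ
  e3 : η * (4 * Λ + 8) ≤ √δ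
  e4 : 2 * B * cB m N * η ^ 2 ≤ 1 / 4
  e5 : cB m N * η * η ≤ 1 / 2
  e6 : 20 * m * B * η ^ 2 * (2 ^ (m + 1) * B ^ 2 * D) ≤ 1 / 8

lemma exists_smE (m N : ℕ) {B D Λ δ : ℝ} (hB : 1 ≤ B) (hD : 1 ≤ D) (hΛ : 1 ≤ Λ) (hδ : 0 < δ) :
    ∃ η₀ > 0, ∀ η, 0 < η → η ≤ η₀ → SmE m N B D Λ δ η := by
  have hcT := cT_nonneg
  have hc : 0 ≤ cB m N := by unfold cB; positivity
  set A : ℝ := 2 + 8 * B * cB m N + 2 * cB m N + 160 * m * B * (2 ^ (m + 1) * B ^ 2 * D) with hA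
  have hB0 : 0 ≤ B := by linarith
  have hD0 : 0 ≤ D := by linarith
  have a1 : 0 ≤ 8 * B * cB m N := by positivity
  have a2 : 0 ≤ 2 * cB m N := by positivity
  have a3 : 0 ≤ 160 * m * B * (2 ^ (m + 1) * B ^ 2 * D) := by positivity
  have hA0 : 0 < A := by linarith
  have hq : 0 < 4 * Λ + 8 := by linarith
  have hsq : 0 < √δ := Real.sqrt_pos.2 hδ
  refine ⟨min (min eps0 δ) (min (√δ / (4 * Λ + 8)) (1 / A)),
    lt_min (lt_min eps0_pos hδ) (lt_min (by positivity) (by positivity)), fun η h0 hη => ?_⟩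
  have h1 : η ≤ eps0 := hη.trans ((min_le_left _ _).trans (min_le_left _ _))
  have h2 : η ≤ δ := hη.trans ((min_le_left _ _).trans (min_le_right _ _))
  have h3 : η ≤ √δ / (4 * Λ + 8) := hη.trans ((min_le_right _ _).trans (min_le_left _ _))
  have h4 : η ≤ 1 / A := hη.trans ((min_le_right _ _).trans (min_le_right _ _))
  have h5 : η * A ≤ 1 := by rwa [le_div_iff₀ hA0] at h4
  have h6 : η ≤ 1 / 2 := by nlinarith
  have h7 : η ^ 2 ≤ η := by nlinarith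
  have b1 : η * (8 * B * cB m N) ≤ 1 := le_trans (by gcongr; linarith) h5
  have b2 : η * (2 * cB m N) ≤ 1 := le_trans (by gcongr; linarith) h5
  have b3 : η * (160 * m * B * (2 ^ (m + 1) * B ^ 2 * D)) ≤ 1 := le_trans (by gcongr; linarith) h5
  refine ⟨h0, h1, h6, h2, by rwa [le_div_iff₀ hq] at h3, ?_, ?_, ?_⟩
  · have : 2 * B * cB m N * η ^ 2 ≤ 2 * B * cB m N * η := by gcongr
    linarith
  · have : cB m N * η * η ≤ cB m N * η * 1 := by gcongr; linarith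
    linarith
  · have : 20 * m * B * η ^ 2 * (2 ^ (m + 1) * B ^ 2 * D) ≤
        20 * m * B * η * (2 ^ (m + 1) * B ^ 2 * D) := by gcongr
    linarith

/-- the constant of the tilt -/
noncomputable def cG (m : ℕ) (B D Λ : ℝ) : ℝ := D * 32 ^ m * (1 + 4 ^ m * B ^ 2 * (2 * (Λ + 2)))

lemma Act.kap_le {ta tb x : ℝ} (hA : Act m n Q F ν P bb ε η u h₁ κ ta tb) (hx : x ≤ tb) :
    κ * x ≤ η :=
  (mul_le_mul_of_nonneg_left hx hA.adm.ref.knn).trans hA.curv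

lemma cB_nonneg (m N : ℕ) : 0 ≤ cB m N := by have := cT_nonneg; unfold cB; positivity

/-- the tilt at the scale `x` is bounded by the height at a larger scale -/
lemma RdyAt.gw_le {ta tb : ℝ} {D δ : ℝ} (hk : INST.Ker k k' K B) (hΛ : 1 ≤ Λ)
    (hη : SmE m (Module.finrank ℝ E) B D Λ δ η) (hta : 0 < ta) (hMΛ : M ≤ Λ)
    (hR : RdyAt k K m n Q F ν P bb ε η M Λ u h₁ κ ta tb) {x : ℝ} (hx1 : ta ≤ x)
    (hx2 : 4 * x ≤ tb) : 0 ≤ gw m T ν P K h₁ (F.lift u) x ∧ ∃ y, 2 * x ≤ y ∧ y ≤ 4 * x ∧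
      gw m T ν P K h₁ (F.lift u) x ≤ 4 ^ m * B ^ 2 * (2 * (Λ + 2)) *
        INST.Hw m T ν k h₁ (F.lift u) y := by
  obtain ⟨h, hh, hC⟩ := hR.act.cyl
  have hA := hR.act
  have H := hA.adm
  have hB1 := hk.kb.one
  have hB0 : 0 ≤ B := by linarith
  have hη0 := hη.pos
  have hx0 : 0 < x := hta.trans_le hx1
  have hκ := H.ref.knn
  have hc0 := cB_nonneg m (Module.finrank ℝ E)
  obtain ⟨y, Ny, hy1, hy2, hNy, hjy, -⟩ := hR.pinch (2 * x) (by linarith) (by linarith)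
  have hy0 : 0 < y := by linarith
  have hyb : y ≤ tb := by linarith
  have htb : 0 < tb := by linarith
  have hSy : ta ≤ y := by linarith
  have hNy2 : Ny ≤ Λ + 1 := by
    have := (abs_le.1 hNy).2
    linarith [hη.e1]
  have hHy := hR.Hpos y hSy hyb
  have hkx := hA.kap_le hyb
  have hkx0 : 0 ≤ κ * y := by positivity
  have s1 : 2 * B * cB m (Module.finrank ℝ E) * (κ * y) ^ 2 ≤ 1 := by
    have : 2 * B * cB m (Module.finrank ℝ E) * (κ * y) ^ 2 ≤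
        2 * B * cB m (Module.finrank ℝ E) * η ^ 2 := by gcongr
    linarith [hη.e4]
  have s2 : cB m (Module.finrank ℝ E) * η * (κ * y) ≤ 1 / 2 := by
    have : cB m (Module.finrank ℝ E) * η * (κ * y) ≤ cB m (Module.finrank ℝ E) * η * η := by
      gcongr
    exact this.trans hη.e5
  have s3 : jF m T (F.lift u) h₁ 0 K (fP T (F.lift u) h₁ P) (fmeas T (F.lift u) h₁ ν) y ≤
      (Λ + 1) * HF m T (F.lift u) 0 k (fmeas T (F.lift u) h₁ ν) y := by
    have h1 : INST.jw m T ν P K h₁ (F.lift u) y ≤ (Λ + 1) * INST.Hw m T ν k h₁ (F.lift u) y := by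
      rw [hjy]
      exact mul_le_mul_of_nonneg_right hNy2 hHy.le
    exact h1
  have hg1 : gw m T ν P K h₁ (F.lift u) y ≤ 2 * (Λ + 1 + 1) *
      INST.Hw m T ν k h₁ (F.lift u) y :=
    gF_le_HF (σ := η) (y := 3 / 2 * tb) H hC hA.minimal hh (hkx.trans hη.e0)
      (hA.slp y hSy hyb) (hA.ballIn (by linarith)) (by linarith) hk.kb hy0 hη0.le
      (hA.slab' hSy hyb hy0) s1 s2 s3
  have hg0 : 0 ≤ gw m T ν P K h₁ (F.lift u) x := hC.gF_nonneg H hk.kb.kern hx0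
  have hgy0 : 0 ≤ gw m T ν P K h₁ (F.lift u) y := hC.gF_nonneg H hk.kb.kern hy0
  refine ⟨hg0, y, hy1, by linarith, ?_⟩
  have h1 : gw m T ν P K h₁ (F.lift u) x ≤ (y / x) ^ m * B ^ 2 * gw m T ν P K h₁ (F.lift u) y :=
    gF_le_gF (z := 0) H hC hk.kb hx0 hy1 (hA.ballIn (by linarith))
  have h2 : y / x ≤ 4 := by rw [div_le_iff₀ hx0]; linarith
  have h3 : (y / x) ^ m * B ^ 2 * gw m T ν P K h₁ (F.lift u) y ≤
      4 ^ m * B ^ 2 * gw m T ν P K h₁ (F.lift u) y := by gcongr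
  calc gw m T ν P K h₁ (F.lift u) x ≤ 4 ^ m * B ^ 2 * gw m T ν P K h₁ (F.lift u) y := h1.trans h3
    _ ≤ 4 ^ m * B ^ 2 * (2 * (Λ + 1 + 1) * INST.Hw m T ν k h₁ (F.lift u) y) := by gcongr
    _ = _ := by ring

lemma freq_real {N N' M Λ δ η : ℝ} (hδ : 0 < δ) (hN1 : |N' - M| ≤ 1) (hη0 : 0 ≤ η) (hη1 : η ≤ 1 / 2)
    (hη3 : η * (4 * Λ + 8) ≤ √δ) (hM : 1 ≤ M) (hMΛ : M ≤ Λ) (hN : |N - M| ≤ η)
    (hN' : |N' - M| ≤ √δ / 4) : (|N - N'| + (|N| + |N'|) * η ^ 2) ^ 2 ≤ δ := by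
  have hsq : 0 < √δ := Real.sqrt_pos.2 hδ
  have hη2 : η ^ 2 ≤ η := by
    rw [sq]
    exact mul_le_of_le_one_right hη0 (by linarith)
  have g1 : |N - N'| ≤ η + √δ / 4 := by
    have : N - N' = (N - M) - (N' - M) := by ring
    rw [this]
    exact (abs_sub _ _).trans (add_le_add hN hN')
  have g2 : |N| ≤ Λ + 1 := by
    have e1 := (abs_le.1 hN).1
    have e2 := (abs_le.1 hN).2
    rw [abs_le]; constructor <;> linarith
  have g3 : |N'| ≤ Λ + 1 := by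
    have e1 := (abs_le.1 hN1).1
    have e2 := (abs_le.1 hN1).2
    rw [abs_le]; constructor <;> linarith
  have hΛ0 : 0 ≤ Λ := by linarith
  have g4 : |N - N'| + (|N| + |N'|) * η ^ 2 ≤ √δ := by
    have e1 : (|N| + |N'|) * η ^ 2 ≤ ((Λ + 1) + (Λ + 1)) * η := by gcongr
    have e2 : ((Λ + 1) + (Λ + 1)) * η + η = η * (2 * Λ + 3) := by ring
    have e3 : η * (2 * Λ + 3) ≤ η * (2 * Λ + 4) := by gcongr; norm_num
    have e4 : η * (4 * Λ + 8) = 2 * (η * (2 * Λ + 4)) := by ring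
    linarith
  have g5 : 0 ≤ |N - N'| + (|N| + |N'|) * η ^ 2 := by positivity
  calc (|N - N'| + (|N| + |N'|) * η ^ 2) ^ 2 ≤ (√δ) ^ 2 := by gcongr
    _ = δ := Real.sq_sqrt hδ.le

/-- the splitting at one ready reference, for given scales `r` and `s` -/
lemma RdyAt.split {tb b D δ r s N Nr : ℝ} (hk : INST.Ker k k' K B) (hm : 1 ≤ m) (hb : 1 ≤ b)
    (hδ : 0 < δ) (hη : SmE m (Module.finrank ℝ E) B D Λ δ η) (hS : 0 < S)
    (hb2 : 32 * b * S ≤ tb) (hM : 1 ≤ M) (hMΛ : M ≤ Λ)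
    (hR : RdyAt k K m n Q F ν P bb ε η M Λ u h₁ κ S tb) (hr1 : S ≤ r) (hr2 : r ≤ 2 * S)
    (hNr : |Nr - M| ≤ η)
    (hjr : INST.jw m T ν P K h₁ (F.lift u) r = Nr * INST.Hw m T ν k h₁ (F.lift u) r)
    (hs1 : 16 * S ≤ s) (hs2 : s ≤ 2 * (16 * S)) (hs3 : s ≤ b * (16 * S)) (hN : |N - M| ≤ η)
    (hps : pinF m T (F.lift u) h₁ 0 k K (fP T (F.lift u) h₁ P) (fmeas T (F.lift u) h₁ ν) N s ≤
      η * INST.Hw m T ν k h₁ (F.lift u) s)
    (hD2 : INST.Hw m T ν k h₁ (F.lift u) (2 * r) ≤ D * INST.Hw m T ν k h₁ (F.lift u) r)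
    (hDs : INST.Hw m T ν k h₁ (F.lift u) s ≤ D * INST.Hw m T ν k h₁ (F.lift u) r) :
    ∃ L : Submodule ℝ E, L ≤ T ∧ Module.finrank ℝ L ≤ m - 1 ∧
      ∀ (z' : E) (N' s' : ℝ), 16 * S ≤ s' → s' ≤ b * (16 * S) → ‖T.starProjection z'‖ ≤ 2 * S →
        |N' - M| ≤ √δ / 4 →
        pinF m T (F.lift u) h₁ z' k K (fP T (F.lift u) h₁ P) (fmeas T (F.lift u) h₁ ν) N' s' ≤
          δ * INST.Hw m T ν k h₁ (F.lift u) s →
        |N' - M| ≤ 1 →
        ‖T.starProjection z' - L.starProjection (T.starProjection z')‖ ≤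
          √(cF m b B (1 / 2) (1 / 2) D * δ) * (16 * S) := by
  obtain ⟨h, hh, hC⟩ := hR.act.cyl
  have hA := hR.act
  have H := hA.adm
  have hB1 := hk.kb.one
  have hB0 : 0 ≤ B := by linarith
  have hη0 := hη.pos
  have hκ := H.ref.knn
  have hc0 := cB_nonneg m (Module.finrank ℝ E)
  have hr0 : 0 < r := hS.trans_le hr1
  have hbS : S ≤ b * S := by nlinarith
  have hrb : r ≤ tb := by linarith
  have hs0 : 0 < s := by linarith
  have hsb : s ≤ tb := by linarith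
  have hHr := hR.Hpos r hr1 hrb
  have hHs := hR.Hpos s (by linarith) hsb
  have hkr := hA.kap_le hrb
  have hkr0 : 0 ≤ κ * r := by positivity
  have ht0 : 0 < 16 * S := by positivity
  have hslp : ∀ Y, ‖bx T 0 Y‖ ≤ 16 * S / 8 → ‖fderiv ℝ (F.lift u) Y‖ ^ 2 ≤ η ^ 2 := by
    intro Y hY
    have h1 := (hA.slp (2 * S) (by linarith) (by linarith)).le Y (by linarith)
    have h2 : κ * (2 * S) ≤ η := hA.kap_le (by linarith)
    have h3 := norm_nonneg (fderiv ℝ (F.lift u) Y)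
    have h4 := h1.trans h2
    gcongr
  have s1 : 2 * B * cB m (Module.finrank ℝ E) * (κ * r) ^ 2 ≤ (1 / 2) / 2 := by
    have : 2 * B * cB m (Module.finrank ℝ E) * (κ * r) ^ 2 ≤
        2 * B * cB m (Module.finrank ℝ E) * η ^ 2 := by gcongr
    linarith [hη.e4]
  have s2 : cB m (Module.finrank ℝ E) * η * (κ * r) ≤ 1 := by
    have : cB m (Module.finrank ℝ E) * η * (κ * r) ≤ cB m (Module.finrank ℝ E) * η * η := by
      gcongr
    linarith [hη.e5]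
  have hD0 : 0 ≤ D := by
    have h1 : 0 ≤ D * INST.Hw m T ν k h₁ (F.lift u) r := hHs.le.trans hDs
    exact nonneg_of_mul_nonneg_left h1 hHr
  have s3 : 20 * m * B * (κ * r) ^ 2 * (2 ^ (m + 1) * B ^ 2 * D) ≤ (1 / 2) / 4 := by
    have : 20 * m * B * (κ * r) ^ 2 * (2 ^ (m + 1) * B ^ 2 * D) ≤
        20 * m * B * η ^ 2 * (2 ^ (m + 1) * B ^ 2 * D) := by gcongr
    linarith [hη.e6]
  have s4 : 1 / 2 * INST.Hw m T ν k h₁ (F.lift u) r ≤ INST.jw m T ν P K h₁ (F.lift u) r := by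
    rw [hjr]
    have h1 := (abs_le.1 hNr).1
    have h2 := hη.e1
    exact mul_le_mul_of_nonneg_right (by linarith) hHr.le
  have s5 : ∀ x : ℝ, 0 ≤ x → x ≤ 1 / 16 → 1 / 2 ≤ k x := fun x h1 h2 => by
    have h3 := hk.low x h1 (by linarith)
    have h4 : (15 / 16 : ℝ) ^ 3 ≤ (1 - x) ^ 3 := by gcongr; linarith
    have h5 : (1 / 2 : ℝ) ≤ (15 / 16) ^ 3 := by norm_num
    linarith
  have s6 : pinF m T (F.lift u) h₁ 0 k K (fP T (F.lift u) h₁ P) (fmeas T (F.lift u) h₁ ν) N s ≤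
      δ * INST.Hw m T ν k h₁ (F.lift u) s :=
    hps.trans (mul_le_mul_of_nonneg_right hη.e2 hHs.le)
  obtain ⟨L, hL, hLd, hLa⟩ := cone_fin (z := 0) (k := k) (k' := k') (K := K) (B := B) (σ := η)
    (r := r) (b := b) (t := 16 * S) (c₀ := 1 / 2) (D := D) (ck := 1 / 2) (v := η ^ 2)
    (s := s) (N := N) (δ := δ) H hC hA.minimal hh hk.kb hm ht0 hb (by linarith) (by linarith)
    (hA.ballIn (by linarith)) (hkr.trans hη.e0) (hA.slp r hr1 hrb) hη0.le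
    (hA.slab' hr1 hrb hr0) (by norm_num) s4 hD2 s1 s2 s3 hHr (by norm_num) s5
    (sq_nonneg η) hslp hs1 hs3 hDs s6
  refine ⟨L, hL, hLd, fun z' N' s' h1 h2 h3 h4 h5 hδ1 => ?_⟩
  have t1 : BallIn T (Metric.ball (0:E) (2 * tb)) z' s' := by
    intro x hxT hx
    rw [mem_ball_zero_iff]
    have h7 : ‖x‖ ≤ ‖x - T.starProjection z'‖ + ‖T.starProjection z'‖ := by
      calc ‖x‖ = ‖(x - T.starProjection z') + T.starProjection z'‖ := by congr 1; abel
        _ ≤ _ := norm_add_le _ _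
    linarith
  have t2 : ‖T.starProjection z' - T.starProjection 0‖ ≤ 16 * S / 8 := by
    rw [map_zero, sub_zero]; linarith
  have t3 := freq_real hδ hδ1 hη0.le hη.e1 hη.e3 hM hMΛ hN h4
  have h6 := hLa z' N' s' h1 h2 t1 t2 h5 t3
  rwa [map_zero, sub_zero] at h6

/-- **[B5-ONE]**, explicit constants -/
theorem one (hk : INST.Ker k k' K B) (hm : 1 ≤ m) (hΛ : 1 ≤ Λ) {b : ℝ} (hb : 2 ≤ b) {J : ℕ}
    (hJ : 128 * b ≤ 2 ^ J) {δ : ℝ} (hδ : 0 < δ)
    (hη : SmE m (Module.finrank ℝ E) B (cD m J Λ) Λ δ η) (hS : 0 < S) (hβ : 2 ^ (J + 1) ≤ β)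
    (hM : 1 ≤ M) (hMΛ : M ≤ Λ)
    (hR : RdyAt k K m n Q F ν P bb ε η M Λ u h₁ κ S (β * S)) :
    ∃ s : ℝ, 16 * S ≤ s ∧ s ≤ 2 * (16 * S) ∧ 0 < INST.Hw m T ν k h₁ (F.lift u) s ∧
      (∀ x, 16 * S ≤ x → x ≤ b * (16 * S) → 0 ≤ gw m T ν P K h₁ (F.lift u) x ∧
        INST.Hw m T ν k h₁ (F.lift u) x + gw m T ν P K h₁ (F.lift u) x ≤
          cG m B (cD m J Λ) Λ * INST.Hw m T ν k h₁ (F.lift u) s) ∧
      ∃ L : Submodule ℝ E, L ≤ T ∧ Module.finrank ℝ L ≤ m - 1 ∧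
        ∀ (z' : E) (N' s' : ℝ), 16 * S ≤ s' → s' ≤ b * (16 * S) → ‖T.starProjection z'‖ ≤ 2 * S →
          |N' - M| ≤ √δ / 4 →
          pinF m T (F.lift u) h₁ z' k K (fP T (F.lift u) h₁ P) (fmeas T (F.lift u) h₁ ν) N' s' ≤
            δ * INST.Hw m T ν k h₁ (F.lift u) s →
          |N' - M| ≤ 1 →
          ‖T.starProjection z' - L.starProjection (T.starProjection z')‖ ≤
            √(cF m b B (1 / 2) (1 / 2) (cD m J Λ) * δ) * (16 * S) := by
  obtain ⟨h, hh, hC⟩ := hR.act.cyl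
  have hA := hR.act
  have hB1 := hk.kb.one
  have hB0 : 0 ≤ B := by linarith
  have hJ1 : (1 : ℝ) ≤ 2 ^ J := one_le_pow₀ (by norm_num)
  have hβS2 : 2 * (2 ^ J * S) ≤ β * S := by
    have : (2 : ℝ) ^ (J + 1) * S ≤ β * S := by gcongr
    calc 2 * (2 ^ J * S) = 2 ^ (J + 1) * S := by ring
      _ ≤ _ := this
  have hbS : 128 * (b * S) ≤ 2 ^ J * S := by
    calc 128 * (b * S) = (128 * b) * S := by ring
      _ ≤ _ := by gcongr
  have hbS1 : 2 * S ≤ b * S := by gcongr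
  have hD1 := one_le_cD m J hΛ
  -- the scale of the energy bound
  obtain ⟨r, Nr, hr1, hr2, hNr, hjr, -⟩ := hR.pinch S le_rfl (by linarith)
  have hr0 : 0 < r := hS.trans_le hr1
  have hJr : 2 ^ J * r ≤ β * S := by
    have : (2:ℝ) ^ J * r ≤ 2 ^ J * (2 * S) := by gcongr
    linarith
  have hJr1 : 2 ^ J * S ≤ 2 ^ J * r := by gcongr
  have hdbl : ∀ x, r ≤ x → x ≤ 2 ^ J * r → INST.Hw m T ν k h₁ (F.lift u) x ≤
      cD m J Λ * INST.Hw m T ν k h₁ (F.lift u) r := fun x h1 h2 =>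
    hR.dbl hk hΛ hr1 hr0 hJr h1 h2
  -- the pinched scale
  obtain ⟨s, N, hs1, hs2, hN, hjs, hps⟩ := hR.pinch (16 * S) (by linarith) (by linarith)
  have hs0 : 0 < s := by linarith
  have hrs : r ≤ s := by linarith
  have hsb : s ≤ β * S := by linarith
  have hHr := hR.Hpos r hr1 (by linarith)
  have hHs := hR.Hpos s (by linarith) hsb
  -- `Hw r ≤ 32 ^ m Hw s`
  have hrs32 : INST.Hw m T ν k h₁ (F.lift u) r ≤ 32 ^ m * INST.Hw m T ν k h₁ (F.lift u) s := by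
    have h1 : INST.Hw m T ν k h₁ (F.lift u) r ≤
        (s / r) ^ m * INST.Hw m T ν k h₁ (F.lift u) s :=
      HF_le_HF (z := 0) hA.adm hC hk.kb hk.anti hr0 hrs (hA.ballIn (by linarith))
    have h2 : s / r ≤ 32 := by rw [div_le_iff₀ hr0]; linarith
    exact h1.trans (by gcongr)
  refine ⟨s, hs1, hs2, hHs, ?_, ?_⟩
  · intro x hx1 hx2
    obtain ⟨hg0, y, hy1, hy2, hg⟩ := hR.gw_le hk hΛ hη hS hMΛ (x := x) (by linarith)
      (by linarith)
    refine ⟨hg0, ?_⟩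
    have hHy2 := hdbl y (by linarith) (by linarith)
    have hHx2 := hdbl x (by linarith) (by linarith)
    have hD0 : 0 ≤ cD m J Λ := by linarith
    have hq : 0 ≤ 4 ^ m * B ^ 2 * (2 * (Λ + 2)) := by
      have : 0 ≤ Λ := by linarith
      positivity
    calc INST.Hw m T ν k h₁ (F.lift u) x + gw m T ν P K h₁ (F.lift u) x ≤
        cD m J Λ * INST.Hw m T ν k h₁ (F.lift u) r + 4 ^ m * B ^ 2 * (2 * (Λ + 2)) *
          (cD m J Λ * INST.Hw m T ν k h₁ (F.lift u) r) :=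
          add_le_add hHx2 (hg.trans (mul_le_mul_of_nonneg_left hHy2 hq))
      _ = (cD m J Λ * (1 + 4 ^ m * B ^ 2 * (2 * (Λ + 2)))) *
            INST.Hw m T ν k h₁ (F.lift u) r := by ring
      _ ≤ (cD m J Λ * (1 + 4 ^ m * B ^ 2 * (2 * (Λ + 2)))) *
            (32 ^ m * INST.Hw m T ν k h₁ (F.lift u) s) := by
          refine mul_le_mul_of_nonneg_left hrs32 (mul_nonneg hD0 ?_)
          linarith
      _ = _ := by unfold cG; ring
  · exact hR.split hk hm (by linarith) hδ hη hS (by linarith) hM hMΛ hr1 hr2 hNr hjr hs1 hs2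
      (hs2.trans (by linarith)) hN hps (hdbl (2 * r) (by linarith) (by nlinarith))
      (hdbl s hrs (by linarith))

end ready

/-- **[B5-ONE]** -/
theorem oneStmt (E : Type*) [NormedAddCommGroup E] [InnerProductSpace ℝ E] [FiniteDimensional ℝ E]
    [MeasurableSpace E] [BorelSpace E] {m : ℕ} (n Q : ℕ) {k k' K : ℝ → ℝ} {B : ℝ}
    (hk : INST.Ker k k' K B) (hm : 1 ≤ m) (b : ℝ) : OneStmt E m n Q k K b := by
  intro L0 hL0
  have hB1 := hk.kb.one
  have hD1 := one_le_cD m 24 hL0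
  set D₀ := cD m 24 L0 with hD₀
  set cg := cG m B D₀ L0 with hcg
  set cf := cF m (2 ^ 17) B (1 / 2) (1 / 2) D₀ with hcf
  have hB0 : 0 ≤ B := by linarith
  have hD0 : 0 ≤ D₀ := by linarith
  have hcf0 : 0 ≤ cf := by rw [hcf]; unfold cF; positivity
  have hcg0 : 0 ≤ cg := by rw [hcg]; unfold cG; positivity
  refine ⟨1 + cg + 256 * cf, by linarith, fun del hdel => ?_⟩
  obtain ⟨η₀, hη₀, hsm⟩ := exists_smE m (Module.finrank ℝ E) hB1 hD1 hL0 hdel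
  refine ⟨η₀, hη₀, ?_⟩
  intro T F ν P ε η M u h₁ κ S hη hηη hS hM hML hR
  have hη' := hsm η hη hηη
  obtain ⟨s, hs1, hs2, hHs, hx, L, hL, hLd, hLa⟩ := one (b := 2 ^ 17) (J := 24) hk hm hL0
    (by norm_num) (by norm_num) hdel hη' hS (by norm_num) hM hML hR
  refine ⟨s, L, hs1, by linarith, hL, hLd, fun x h1 h2 => ?_, fun c N' s' h1 h2 h3 h4 h5 => ?_⟩
  · refine (hx x (by linarith) (by linarith)).2.trans ?_
    exact mul_le_mul_of_nonneg_right (by linarith) hHs.le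
  · have e3 := hη'.e3
    have e1 := hη'.e1
    have h6 : |N' - M| ≤ √del / 4 := by
      refine h4.trans ?_
      have : η * 8 ≤ η * (4 * L0 + 8) := by gcongr; linarith
      linarith
    have h7 : |N' - M| ≤ 1 := h4.trans (by linarith)
    refine (hLa c N' s' h1 (by linarith) h3 h6 h5 h7).trans ?_
    have h8 : √(cf * del) * (16 * S) = √(256 * cf * del) * S := by
      have h9 : √(256 * cf * del) = 16 * √(cf * del) := by
        rw [show 256 * cf * del = 16 ^ 2 * (cf * del) by ring, Real.sqrt_mul (by norm_num),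
          Real.sqrt_sq (by norm_num)]
      rw [h9]; ring
    rw [h8]
    refine mul_le_mul_of_nonneg_right (Real.sqrt_le_sqrt ?_) hS.le
    exact mul_le_mul_of_nonneg_right (by linarith) hdel.le

end Vale.Agent.P214.BDIM
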