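import Vale.Agent.P214.BDIM.Props

/-!
# P214, target B, block [B5-FLAT]: the statement for one centre (`OneStmt`)
-/

open Set Filter Topology MeasureTheory Metric
open scoped RealInnerProductSpace ENNReal ContDiff

namespace Vale.Agent.P214.BDIM

open WIN STR FM DIM SCALE SUB

/-- **[B5-ONE]** cone splitting at one centre: from an active pinched reference on
`[S, 2 ^ 26 S]`. -/
def OneStmt (E : Type*) [NormedAddCommGroup E] [InnerProductSpace ℝ E] [FiniteDimensional ℝ E]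
    [MeasurableSpace E] [BorelSpace E] (m n Q : ℕ) (k K : ℝ → ℝ) (b : ℝ) : Prop :=
  ∀ L0 : ℝ, 1 ≤ L0 → ∃ D : ℝ, 1 ≤ D ∧ ∀ del : ℝ, 0 < del → ∃ η₀ : ℝ, 0 < η₀ ∧
    ∀ (T : Submodule ℝ E) (F : Frame m n T) (ν : Measure E) (P : E → E →L[ℝ] E)
      (ε η M : ℝ) (u : Fin n → REF.E m → ℝ) (h₁ κ S : ℝ), 0 < η → η ≤ η₀ → 0 < S →
    1 ≤ M → M ≤ L0 → RdyAt k K m n Q F ν P b ε η M L0 u h₁ κ S (2 ^ 26 * S) →
    ∃ (s : ℝ) (L : Submodule ℝ E), 16 * S ≤ s ∧ s ≤ 32 * S ∧ L ≤ T ∧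
      Module.finrank ℝ L ≤ m - 1 ∧
      (∀ x, 32 * S ≤ x → x ≤ 2 ^ 21 * S →
        INST.Hw m T ν k h₁ (F.lift u) x + gw m T ν P K h₁ (F.lift u) x ≤
          D * INST.Hw m T ν k h₁ (F.lift u) s) ∧
      ∀ (c : E) (N' s' : ℝ), 16 * S ≤ s' → s' ≤ 2 ^ 18 * S → ‖T.starProjection c‖ ≤ 2 * S →
        |N' - M| ≤ 2 * η →
        BCS.pinF m T (F.lift u) h₁ c k K (fP T (F.lift u) h₁ P) (fmeas T (F.lift u) h₁ ν) N' s' ≤
          del * INST.Hw m T ν k h₁ (F.lift u) s →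
        ‖T.starProjection c - L.starProjection (T.starProjection c)‖ ≤ √(D * del) * S

end Vale.Agent.P214.BDIM
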