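import Vale.Agent.P214.BABS.Defs
import Vale.Agent.P214.BLOC.Loc
import Vale.Agent.P214.BCS.LowFin
import Vale.Agent.P214.BTWO.At
import Vale.Agent.P214.INST.Props
import Vale.Agent.P214.BDIM.Cover
import Vale.Agent.P214.DIM.PMain

/-!
# P214, target B, block [B5] (helper848): exact statements of the assembly

`Act`  : one exact reference which is active at the centre `0` on the scales `[ta, tb]`;
`RdyAt`: it is pinched and doubling there; `Rdy`: at all small scales `t` there is such a reference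
on `[t, β t]` or on `[64 β t, 64 β² t]`.
`Pt`   : the output of the chain ([B1], [B2]) at one singular point with power decay.
`TwoStmt` ([B4]) : transfer of the pinching from the chart of `z` to the chart of `x`.
`PtStmt`, `FlatStmt`, `CovStmt` : [B5-PT], [B5-FLAT], [B5-COV].
-/

open Set Filter Topology MeasureTheory Metric
open scoped RealInnerProductSpace ENNReal ContDiff

namespace Vale.Agent.P214.BDIM

open WIN STR FM DIM SCALE SUB

noncomputable section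

variable {m n Q : ℕ} {E : Type*} [NormedAddCommGroup E] [InnerProductSpace ℝ E]
  [FiniteDimensional ℝ E] [MeasurableSpace E] [BorelSpace E]

/-- **one active reference** `u` at the centre `0`, for all scales in `[ta, tb]`; `h₁` is the radius
of the tube, `κ` the curvature.  `ε` is a FIXED small number (global slope of the references), `η`
tends to zero with the scale.  `b < 1` is the exponent of the smallness (`h ^ b` with `h` the height
at the same scale). -/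
structure Act (m n Q : ℕ) {T : Submodule ℝ E} (F : Frame m n T) (ν : Measure E)
    (P : E → E →L[ℝ] E) (b ε η : ℝ) (u : Fin n → REF.E m → ℝ) (h₁ κ ta tb : ℝ) : Prop where
  adm : Adm T (F.lift u) ε κ h₁
  cyl : ∃ h, h ≤ 1 ∧ CylF m T (F.lift u) h₁ (ball 0 (2 * tb)) h (fmeas T (F.lift u) h₁ ν)
    (fP T (F.lift u) h₁ P)
  minimal : MinimalOver T (F.lift u) (ball 0 (2 * tb))
  curv : κ * tb ≤ η
  slp : ∀ t, ta ≤ t → t ≤ tb → ODEW.Slp T (F.lift u) 0 κ t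
  pos : ∀ s, ta ≤ s → s ≤ tb → 0 < hN m T (F.lift u) ν s
  le : ∀ s, ta ≤ s → s ≤ tb → hN m T (F.lift u) ν s ≤ η
  at_ : ∀ s, ta ≤ s → s ≤ tb → BTWO.At m n Q F ν 0 ε s (hN m T (F.lift u) ν s) b u
  thin : ∀ s, ta ≤ s → s ≤ tb → ∀ᵐ y ∂ν, ‖T.starProjection y‖ < s →
    ‖KMS.rel T (F.lift u) y‖ ≤ s * hN m T (F.lift u) ν s ^ (1 / 3 : ℝ)
  tube : ∀ s, ta ≤ s → s ≤ tb → s * hN m T (F.lift u) ν s ^ (1 / 4 : ℝ) ≤ h₁
  tube_le : h₁ ≤ ta
  coarse : ∀ t, ta ≤ t → t ≤ tb → ∀ᵐ Y ∂(fmeas T (F.lift u) h₁ ν),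
    ‖T.starProjection Y‖ < 2 * t → ‖FV.co T Y‖ ≤ η * t

/-- an active reference, pinched with the limit frequency `M` in every dyadic interval of
`[ta, tb]`, and doubling with the constant `Λ` -/
structure RdyAt (k K : ℝ → ℝ) (m n Q : ℕ) {T : Submodule ℝ E} (F : Frame m n T) (ν : Measure E)
    (P : E → E →L[ℝ] E) (b ε η M Λ : ℝ) (u : Fin n → REF.E m → ℝ) (h₁ κ ta tb : ℝ) : Prop where
  act : Act m n Q F ν P b ε η u h₁ κ ta tb
  Hpos : ∀ r, ta ≤ r → r ≤ tb → 0 < INST.Hw m T ν k h₁ (F.lift u) r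
  dblH : ∀ r, ta ≤ r → 2 * r ≤ tb →
    INST.Hw m T ν k h₁ (F.lift u) (2 * r) ≤ Λ * INST.Hw m T ν k h₁ (F.lift u) r
  dblN : ∀ r, ta ≤ r → 2 * r ≤ tb →
    hN m T (F.lift u) ν (2 * r) ≤ Λ * hN m T (F.lift u) ν r
  pinch : ∀ r, ta ≤ r → 2 * r ≤ tb → ∃ s N, r ≤ s ∧ s ≤ 2 * r ∧ |N - M| ≤ η ∧
    INST.jw m T ν P K h₁ (F.lift u) s = N * INST.Hw m T ν k h₁ (F.lift u) s ∧
    BCS.pinF m T (F.lift u) h₁ 0 k K (fP T (F.lift u) h₁ P) (fmeas T (F.lift u) h₁ ν) N s ≤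
      η * INST.Hw m T ν k h₁ (F.lift u) s

/-- at every small scale `t` there is a pinched active reference on `[t, β t]` or on
`[64 β t, 64 β² t]` (a switch of the references, with a factor `8` of room on both sides, cannot
meet both intervals), for all ratios `β ≤ 2 ^ 60` -/
def Rdy (k K : ℝ → ℝ) (m n Q : ℕ) {T : Submodule ℝ E} (F : Frame m n T) (ν : Measure E)
    (P : E → E →L[ℝ] E) (b ε η M Λ t₁ : ℝ) : Prop :=
  ∀ β t : ℝ, 2 ≤ β → β ≤ 2 ^ 60 → 0 < t → t ≤ t₁ → ∃ s, (s = t ∨ s = 64 * β * t) ∧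
    ∃ (u : Fin n → REF.E m → ℝ) (h₁ κ : ℝ), RdyAt k K m n Q F ν P b ε η M Λ u h₁ κ s (β * s)

/-! ### one point -/

/-- the measure of `V` at `x` in unit coordinates: the cylinder of radius `2 ^ (-j)` over `T`,
dilated to radius `3 / 8` -/
def nuX {U : Set E} (V : IntegralVarifold m U) (T : Submodule ℝ E) (x : E) (j : ℕ) : Measure E :=
  dilM m 0 ((3 / 8) / (1 / 2) ^ j) (BLOC.cylT V T x ((1 / 2) ^ j))

/-- the tangent planes of `V` at `x` in unit coordinates -/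
def PX {U : Set E} (V : IntegralVarifold m U) (x : E) (j : ℕ) : E → E →L[ℝ] E :=
  dilP 0 ((3 / 8) / (1 / 2) ^ j) (SUB.trP V x)

/-- **the data of one point of the class `(Q, i, j, l)`**: power decay with exponent `1/(i+1)`,
constant `i` and radius `1/(i+1)`; radius `2 ^ (-j)` of the cylinder; frequency and doubling
bounded by `l`. -/
structure Pt (k K : ℝ → ℝ) (b ε : ℝ) {U : Set E} (V : IntegralVarifold m U) (n : ℕ) (x : E)
    (Q i j l : ℕ) where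
  T : Submodule ℝ E
  F : Frame m n T
  pf : BLOC.PF V x T Q (1 / ((i : ℝ) + 1)) i (1 / ((i : ℝ) + 1))
  ball : closedBall x (2 * (1 / 2) ^ j) ⊆ U
  loc : BLOC.LocB m Q T (nuX V T x j) (PX V x j) (1 / ((i : ℝ) + 1)) (1 / 64)
  M : ℝ
  one_le : 1 ≤ M
  le : M ≤ l
  rdy : ∀ η, 0 < η → ∃ t₁, 0 < t₁ ∧ Rdy k K m n Q F (nuX V T x j) (PX V x j) b ε η M l t₁

/-- **[B5-PT]** (helper964): every singular point with power flatness has such data, for every
`0 < ε ≤ eps0` (the multiplicity `Q` does not depend on `ε`) -/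
def PtStmt (E : Type*) [NormedAddCommGroup E] [InnerProductSpace ℝ E] [FiniteDimensional ℝ E]
    [MeasurableSpace E] [BorelSpace E] (m n : ℕ) (k K : ℝ → ℝ) (b : ℝ) : Prop :=
  ∀ (U : Set E) (V : IntegralVarifold m U), IsOpen U → V.IsStationary → ∀ x ∈ V.sing,
    V.PowerFlat x → ∃ Q : ℕ, 1 ≤ Q ∧ ∀ ε : ℝ, 0 < ε → ε ≤ eps0 →
      ∃ i j l : ℕ, Nonempty (Pt k K b ε V n x Q i j l)

/-! ### two points -/

/-- near the origin, the pair `(ν', P')` is the pair `(ν, P)` translated by `-c`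
(`BTR.two_centres`, `BTR.trP_two`) -/
structure Nb (ν : Measure E) (P : E → E →L[ℝ] E) (ν' : Measure E) (P' : E → E →L[ℝ] E) (c : E)
    (ρ : ℝ) : Prop where
  meas : (ν.map fun y => y - c).restrict (ball 0 ρ) = ν'.restrict (ball 0 ρ)
  plane : (fun y => P (y + c)) = P'

/-- the tilt energy of the reference in the chart -/
def gw (m : ℕ) (T : Submodule ℝ E) (ν : Measure E) (P : E → E →L[ℝ] E) (K : ℝ → ℝ) (h₁ : ℝ)
    (w : E → E) (t : ℝ) : ℝ :=
  gF m T w 0 K (fP T w h₁ P) (fmeas T w h₁ ν) t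

/-- **[B4]**: transfer of the pinching at the centre `c` (the origin of the second chart) from the
second chart to the first one, at the common scale `s`, and comparison of the heights.
`ε ≤ ε₀(m, n, Q)` is fixed. -/
def TwoStmt (E : Type*) [NormedAddCommGroup E] [InnerProductSpace ℝ E] [FiniteDimensional ℝ E]
    [MeasurableSpace E] [BorelSpace E] (m n Q : ℕ) (k K : ℝ → ℝ) (b : ℝ) : Prop :=
  ∃ ε₀ : ℝ, 0 < ε₀ ∧ ∀ ε : ℝ, 0 < ε → ε ≤ ε₀ → ∀ D : ℝ, 1 ≤ D → ∃ A : ℝ, 1 ≤ A ∧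
  ∀ η' : ℝ, 0 < η' → ∃ η₀ : ℝ, 0 < η₀ ∧ ∀ η : ℝ, 0 < η → η ≤ η₀ →
    ∀ (T T' : Submodule ℝ E) (F : Frame m n T) (F' : Frame m n T') (ν ν' : Measure E)
      (P P' : E → E →L[ℝ] E) (c : E) (u u' : Fin n → REF.E m → ℝ) (h₁ h₁' κ κ' s β₀ : ℝ),
    0 < s → s ≤ η → 0 < β₀ → ‖c‖ ≤ s / 64 → ‖FV.co T c‖ ≤ η * s →
    ‖T.starProjection - T'.starProjection‖ ≤ η →
    BLOC.LocB m Q T ν P β₀ (1 / 64) → BLOC.LocB m Q T' ν' P' β₀ (1 / 64) →
    Nb ν P ν' P' c (3 / 16) →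
    Act m n Q F ν P b ε η u h₁ κ (s / 64) s → Act m n Q F' ν' P' b ε η u' h₁' κ' (s / 64) s →
    hN m T (F.lift u) ν s ≤ D * hN m T (F.lift u) ν (s / 8) →
    hN m T' (F'.lift u') ν' s ≤ D * hN m T' (F'.lift u') ν' (s / 8) →
    INST.Hw m T' ν' k h₁' (F'.lift u') (s / 16) ≤ A * INST.Hw m T ν k h₁ (F.lift u) (s / 4) ∧
    ∀ N : ℝ, BCS.pinF m T (F.lift u) h₁ c k K (fP T (F.lift u) h₁ P) (fmeas T (F.lift u) h₁ ν) N
        (s / 32) ≤
      A * BCS.pinF m T' (F'.lift u') h₁' 0 k K (fP T' (F'.lift u') h₁' P')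
        (fmeas T' (F'.lift u') h₁' ν') N (s / 16) +
      η' * (1 + N ^ 2) * (INST.Hw m T ν k h₁ (F.lift u) (s / 4) +
        gw m T ν P K h₁ (F.lift u) (s / 4))

/-! ### the assembly -/

/-- **[B5-FLAT]** (helper224; body of `dimH_le_of_pinch`): a set of points of one class which are
ready below the same scale, with frequencies equal up to `δ`, is near `(m-1)`-planes at small
scales (for one fixed `ε > 0`). -/
def FlatStmt (E : Type*) [NormedAddCommGroup E] [InnerProductSpace ℝ E] [FiniteDimensional ℝ E]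
    [MeasurableSpace E] [BorelSpace E] (m n : ℕ) (k K : ℝ → ℝ) (b : ℝ) : Prop :=
  ∀ Q : ℕ, 1 ≤ Q → ∃ ε₀ : ℝ, 0 < ε₀ ∧ ∀ ε : ℝ, 0 < ε → ε ≤ ε₀ →
    ∀ (U : Set E) (V : IntegralVarifold m U), IsOpen U → V.IsStationary → ∀ (i j l : ℕ)
    (ρ : ℝ), 0 < ρ → ∃ δ : ℝ, 0 < δ ∧ ∀ t₁ : ℝ, 0 < t₁ → ∃ t₀ : ℝ, 0 < t₀ ∧
    ∀ (B : Set E) (D : ∀ x : B, Pt k K b ε V n (x : E) Q i j l),
    (∀ x : B, (x : E) ∈ V.spt) →
    (∀ x : B, Rdy k K m n Q (D x).F (nuX V (D x).T x j) (PX V x j) b ε δ (D x).M l t₁) →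
    (∀ x y : B, |(D x).M - (D y).M| ≤ δ) →
    ∀ x ∈ B, ∀ t, 0 < t → t ≤ t₀ → FlatPt (m - 1) ρ t B x

/-- **[B5-COV]** (helper15) -/
def CovStmt (E : Type*) [NormedAddCommGroup E] [InnerProductSpace ℝ E] [FiniteDimensional ℝ E]
    [MeasurableSpace E] [BorelSpace E] (m n : ℕ) (k K : ℝ → ℝ) (b : ℝ) : Prop :=
  1 ≤ m → PtStmt E m n k K b → FlatStmt E m n k K b →
    ∀ (U : Set E) (V : IntegralVarifold m U), IsOpen U → V.IsStationary →
      dimH V.sing ≤ ((m - 1 : ℕ) : ℝ≥0∞)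

end

end Vale.Agent.P214.BDIM
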